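import Vale.Agent.P236E.Fm

/-!
# P236, block ENG: the certificate checker

The variable `base r s T + 16 i + l` is the coordinate `l` of `D_r e_i`, where `e_i` is the basis
element `i` of the cell `(s, T)`, and `D_r` is `D5` for `r = false`, `D9` for `r = true`.
-/

namespace Vale.Agent.P236E

deriving instance DecidableEq for Mx

noncomputable def tS (r : Bool) (s : ℕ) : ℕ := Bool.rec (Nat.add s 5) (Nat.add s 9) r

noncomputable def tT (r : Bool) (T : ℕ) : ℕ := Bool.rec (Nat.add T 1) (Nat.add T 2) r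

noncomputable def base (r : Bool) (s T : ℕ) : ℕ :=
  Nat.add (Nat.mul 256 (Nat.add (Bool.rec 0 1 r) (Nat.mul 2 (Nat.add s (Nat.mul 128 T))))) 1

noncomputable def band (a b : Bool) : Bool := Bool.rec false b a

noncomputable def bor (a b : Bool) : Bool := Bool.rec b true a

noncomputable def imp (a b : Bool) : Bool := Bool.rec true b a

noncomputable def nz (d : ℕ) : Bool := fd d false true true false

noncomputable def rowv (b : ℕ) (l : List ℕ) (i : ℕ) : Fm :=
  lamv l (Nat.add b (Nat.mul 16 i)) .nil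

/-- `∑ xs_i * φ (i₀ + i)` for exact digits. -/
noncomputable def dotE (φ : ℕ → Fm) (xs : List ℕ) : ℕ → Fm :=
  List.rec (fun _ => .nil) (fun d _ ih i => fd d (ih (Nat.succ i)) (fadd (φ i) (ih (Nat.succ i)))
    (fadd (fneg (φ i)) (ih (Nat.succ i))) (ih (Nat.succ i))) xs

/-- `l (D_r x)` for an exact vector. -/
noncomputable def LE (r : Bool) (s T : ℕ) (xs l : List ℕ) : Fm :=
  fn (base r s T) fun b => dotE (rowv b l) xs 0

noncomputable def ul (v : ℕ) : List ℕ := unp 16 v

noncomputable def mapL {α β : Type} (f : α → β) (l : List α) : List β :=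
  List.rec [] (fun a _ ih => f a :: ih) l

noncomputable def units (n : ℕ) : List (List ℕ) := Nat.rec [] (fun k ih => unit k :: ih) n

noncomputable def keep (w : List ℕ) (l : List (List ℕ)) : List (List ℕ) :=
  Bool.rec (w :: l) l (vz w)

noncomputable def cutL (f : List ℕ → ℕ) (v₀ : List ℕ) (d₀ : ℕ) (vs : List (List ℕ)) :
    List (List ℕ) :=
  List.rec [] (fun v _ ih => keep (vadd v (vsc (dneg (dmul (f v) d₀)) v₀)) ih) vs

/-- Intersection of a span with the kernel of a functional. -/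
noncomputable def cut1 (f : List ℕ → ℕ) (vs : List (List ℕ)) : List (List ℕ) :=
  List.rec vs (fun v _ ih => fd (f v) ih (cutL f v 1 vs) (cutL f v 2 vs) ih) vs

/-- Facts. -/
inductive Fact where
  | eqf (f : Fm) : Fact
  | bad : Fact
  | mrec (id : ℕ) (r : Bool) (m : Mx) (ws : List (List ℕ × Mx)) : Fact
  | perm (s T x : ℕ) : Fact
  | cl (s T t : ℕ) : Fact
  | ne (r : Bool) (s T x l : ℕ) : Fact
  | goal (n : ℕ) : Fact
  | im (s T v : ℕ) : Fact
  deriving DecidableEq

noncomputable def hasF (fs : List Fact) (f : Fact) : Bool := anyL (fun g => decide (g = f)) fs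

noncomputable def consO (o : Option Fm) (l : List Fact) : List Fact :=
  Option.rec l (fun f => .eqf f :: l) o

noncomputable def guard (b : Bool) (l : List Fact) : List Fact := Bool.rec [] l b

/-- Use the record number `id`. -/
noncomputable def useRec (id : ℕ) (K : Bool → Mx → List (List ℕ × Mx) → List Fact)
    (fs : List Fact) : List Fact :=
  List.rec [] (fun f _ ih => Fact.rec (fun _ => ih) ih
    (fun id' r m ws => Bool.rec ih (K r m ws) (Nat.beq id id')) (fun _ _ _ => ih)
    (fun _ _ _ => ih) (fun _ _ _ _ _ => ih) (fun _ => ih) (fun _ _ _ => ih) f) fs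

noncomputable def isCl (s T t : ℕ) (f : Fact) : Bool :=
  Fact.rec (fun _ => false) false (fun _ _ _ _ => false) (fun _ _ _ => false)
    (fun s' T' t' => band (Nat.beq s s') (band (Nat.beq T T') (Nat.ble t t')))
    (fun _ _ _ _ _ => false) (fun _ => false) (fun _ _ _ => false) f

noncomputable def high (s T t : ℕ) : Bool :=
  band (Nat.ble (Nat.add (Nat.mul 2 T) 84) (Nat.mul 9 s)) (Nat.ble (Nat.add t 13) s)

noncomputable def clOK (fs : List Fact) (s T t : ℕ) : Bool :=
  bor (band (Nat.ble (Nat.add (Nat.mul 2 T) 2) (Nat.mul 3 s)) (Nat.ble t s))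
    (bor (high s T t) (anyL (isCl s T t) fs))

/-- The cells `(s + 4 k, T + k)` for all `k`. -/
noncomputable def clRange (fs : List Fact) (s T t k₀ : ℕ) : Bool :=
  band (allN (fun k => clOK fs (Nat.add s (Nat.mul 4 k)) (Nat.add T k) t) k₀)
    (high (Nat.add s (Nat.mul 4 k₀)) (Nat.add T k₀) t)

namespace Orc

variable (O : Orc)

noncomputable def okc (s T : ℕ) : Bool :=
  band (O.ok s T) (band (Nat.ble (O.dim s T) 16) (Nat.ble s 127))

noncomputable def ux (s T v : ℕ) : List ℕ := unp (O.dim s T) v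

/-- `l (D_r x)`. -/
noncomputable def LD (t : Tr) (r : Bool) (s T : ℕ) (xs l : List ℕ) : Option Fm :=
  Bool.rec none (fn (base r s T) fun b => dot t (rowv b l) xs 0) (O.okc s T)

/-- `D_r x + P = 0`. -/
noncomputable def chkD (t : Tr) (r : Bool) (s T : ℕ) (xs : List ℕ) (P : FV) : Bool :=
  band (O.okc (tS r s) (tT r T))
    (allN (fun l => oisz t (lamF t (unit l) P (O.LD t r s T xs (unit l))))
      (O.dim (tS r s) (tT r T)))

noncomputable def ker (t : Tr) (s T : ℕ) (xs : List ℕ) : Bool := O.chkD t false s T xs .nil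

/-- `l ∘ D5` vanishes on the cell `(s, T)`. -/
noncomputable def ann (t : Tr) (s T : ℕ) (l : List ℕ) : Bool :=
  band (O.okc s T) (fn (base false s T) fun b => allN (fun i => isz t (rowv b l i)) (O.dim s T))

/-- `∑ φ * (w x) + P`. -/
noncomputable def wsum (t : Tr) (s T : ℕ) (xs : List ℕ) (P : FV) (ws : List (List ℕ × Mx)) : FV :=
  List.rec P (fun p _ ih => consF t (dec p.1) (O.act p.2 s T xs) ih) ws

/-- `∑ ψ * v`, where the vectors `v` are known to be in the image of `D5` on the cell `(s, T)`. -/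
noncomputable def imsum (t : Tr) (fs : List Fact) (s T : ℕ) (us : List (List ℕ × ℕ)) : FV :=
  List.rec .nil (fun p _ ih => Bool.rec ih
    (consF t (dec p.1) (O.ux (Nat.add s 5) (Nat.add T 1) p.2) ih) (hasF fs (.im s T p.2))) us

/-- `v` is in the image of `D5` on the cell `(s, T)`. -/
noncomputable def chkI (t : Tr) (fs : List Fact) (s T : ℕ) (v : List ℕ) (x : ℕ)
    (us : List (List ℕ × ℕ)) : Bool :=
  band (O.okc s T)
    (O.chkD t false s T (O.ux s T x) (.cons (.cons 0 true .nil) v (O.imsum t fs s T us)))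

/-- `D9 x + P` is in the image of `D5`, or `D5 x + P = 0`. -/
noncomputable def chkM (t : Tr) (fs : List Fact) (r : Bool) (s T : ℕ) (xs : List ℕ) (P : FV → FV)
    (us : List (List ℕ × ℕ)) : Bool :=
  Bool.rec (O.chkD t false s T xs (P .nil))
    (fn (Nat.add s 4) fun s₄ => fn (Nat.add T 1) fun T₁ =>
      band (O.ker t s T xs) (O.chkD t true s T xs (P (O.imsum t fs s₄ T₁ us))))
    r

/-- `∑ (D_r x)_j * row j + P`. -/
noncomputable def dsum (t : Tr) (r : Bool) (s T : ℕ) (xs : List ℕ) (row : ℕ → List ℕ) (P : FV)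
    (n : ℕ) : FV :=
  Nat.rec P (fun j ih => consF t (LE r s T xs (unit j)) (row j) ih) n

noncomputable def eqs (t : Tr) (r : Bool) (s' T' : ℕ) (mx : List ℕ) (P : FV)
    (acc : List Fact) (ls : List (List ℕ)) : List Fact :=
  List.rec acc (fun l _ ih => consO (lamF t l P (O.LD t r s' T' mx l)) ih) ls

noncomputable def job (t : Tr) (r : Bool) (op : ℕ → ℕ → List ℕ → List ℕ) (Q : List ℕ → FV)
    (a s T s₁ T₁ s' T' : ℕ) (ls : List (List ℕ)) (acc : List Fact) (xs : List ℕ) : List Fact :=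
  Bool.rec acc
    (O.eqs t r s' T' (op s T xs)
      (dsum t r s T xs (fun j => vsg a (op s₁ T₁ (unit j))) (Q xs) (O.dim s₁ T₁)) acc ls)
    (imp r (O.ker t s T xs))

/-- The Leibniz rule for an operator of bidegree `(a, u)`. -/
noncomputable def jobs (t : Tr) (r : Bool) (op : ℕ → ℕ → List ℕ → List ℕ) (Q : List ℕ → FV)
    (a u s T : ℕ) (ls : List (List ℕ)) (xs : List ℕ) : List Fact :=
  fn (Nat.add a s) fun s' => fn (Nat.add u T) fun T' => fn (tS r s) fun s₁ => fn (tT r T) fun T₁ =>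
    guard (band (O.okc s T) (band (O.okc s₁ T₁)
        (imp r (allL (O.ann t (Nat.add s' 4) (Nat.add T' 1)) ls))))
      (List.rec [] (fun x _ ih => O.job t r op Q a s T s₁ T₁ s' T' ls ih (O.ux s T x)) xs)

noncomputable def ddEq (t : Tr) (r : Bool) (s T b : ℕ) (xs l : List ℕ) (n : ℕ) : Option Fm :=
  Nat.rec (some .nil) (fun j ih => prodF t (LE r s T xs (unit j)) (rowv b l j) ih) n

noncomputable def ddJob (t : Tr) (r : Bool) (s T b n : ℕ) (ls : List (List ℕ))
    (acc : List Fact) (xs : List ℕ) : List Fact :=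
  Bool.rec acc (List.rec acc (fun l _ ih => consO (ddEq t r s T b xs l n) ih) ls)
    (imp r (O.ker t s T xs))

noncomputable def ddJobs (t : Tr) (r r' : Bool) (s T : ℕ) (ls : List (List ℕ)) (xs : List ℕ) :
    List Fact :=
  fn (tS r s) fun s₁ => fn (tT r T) fun T₁ => fn (base r' s₁ T₁) fun b =>
    guard (band (O.okc s T) (band (O.okc s₁ T₁)
        (imp r' (allL (O.ann t (Nat.add s₁ 4) (Nat.add T₁ 1)) ls))))
      (List.rec [] (fun x _ ih => O.ddJob t r s T b (O.dim s₁ T₁) ls ih (O.ux s T x)) xs)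

noncomputable def cutf (t : Tr) (r : Bool) (s T : ℕ) (l v : List ℕ) : ℕ :=
  odig t (O.LD t r s T v l)

noncomputable def cuts (t : Tr) (a9 : Bool) (s T : ℕ) (cs : List ℕ) :
    List (List ℕ) → List (List ℕ) :=
  List.rec (fun vs => vs) (fun c _ ih vs =>
    Nat.rec (ih (cut1 (O.cutf t false s T (ul (Nat.div c 2))) vs))
      (fun _ _ => Bool.rec (ih vs) (ih (cut1 (O.cutf t true s T (ul (Nat.div c 2))) vs))
        (band a9 (O.ann t (Nat.add s 4) (Nat.add T 1) (ul (Nat.div c 2)))))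
      (Nat.mod c 2)) cs

/-- Vectors which span the cycles. -/
noncomputable def cov (t : Tr) (a9 : Bool) (s T : ℕ) (cs : List ℕ) : List (List ℕ) :=
  O.cuts t a9 s T cs (units (O.dim s T))

/-- `v` is killed from the filtrations `≥ q`. -/
noncomputable def bdOK (t : Tr) (fs : List Fact) (s T q : ℕ) (v : List ℕ)
    (b : Bool × ℕ × List (List ℕ × ℕ)) : Bool :=
  fn (Nat.sub s (tS b.1 0)) fun s₀ => fn (Nat.sub T (tT b.1 0)) fun T₀ =>
    band (Nat.beq (tS b.1 s₀) s) (band (Nat.beq (tT b.1 T₀) T) (band (Nat.ble q s₀)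
      (Bool.rec (O.chkI t fs s₀ T₀ v b.2.1 b.2.2) (band (O.okc s₀ T₀)
        (O.chkM t fs true s₀ T₀ (O.ux s₀ T₀ b.2.1) (FV.cons (.cons 0 true .nil) v) b.2.2)) b.1)))

noncomputable def allBd (t : Tr) (fs : List Fact) (s T q : ℕ) (vs : List (List ℕ)) :
    List (Bool × ℕ × List (List ℕ × ℕ)) → Bool :=
  List.rec (fun _ => true) (fun v _ ih bs =>
    List.rec false (fun b bs' _ => band (O.bdOK t fs s T q v b) (ih bs')) bs) vs

noncomputable def isDeg (a u : ℕ) (m : Mx) : Bool :=
  band (Nat.beq (O.dS m) a) (Nat.beq (O.dT m) u)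

noncomputable def line (s T : ℕ) (m : Mx) : Bool :=
  band (O.isDeg s T m) (band (O.ok s T) (Nat.beq (O.dim s T) 1))

end Orc

/-- Rules. -/
inductive Rule where
  | mrec (id : ℕ) (r : Bool) (m : Mx) (ws : List (List ℕ × Mx)) (us : List (List ℕ × ℕ)) : Rule
  | leib (id s T : ℕ) (xs ls : List ℕ) : Rule
  | bok (r : Bool) (s T : ℕ) (xs ls : List ℕ) : Rule
  | dd (r r' : Bool) (s T : ℕ) (xs ls : List ℕ) : Rule
  | peq (r : Bool) (s T x : ℕ) (ls : List ℕ) : Rule
  | perm (s T x : ℕ) (us : List (List ℕ × ℕ)) (k₀ : ℕ) : Rule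
  | pact (m : Mx) (mu s T y z : ℕ) : Rule
  | pbok (s T y z : ℕ) : Rule
  | padd (s T x y z : ℕ) : Rule
  | cl (s T q : ℕ) (cs : List ℕ) (bs : List (Bool × ℕ × List (List ℕ × ℕ))) : Rule
  | seed5 (h b : Mx) (l : ℕ) : Rule
  | seed9 (b : Mx) (cs : List ℕ) (l : ℕ) : Rule
  | ne (r : Bool) (s T x l : ℕ) : Rule
  | goal3 (j x : ℕ) : Rule
  | goalA (j x z k₀ : ℕ) : Rule
  | goal1 (cs : List ℕ) : Rule
  | im (s T v x : ℕ) (us : List (List ℕ × ℕ)) : Rule
  | pbd (s T v : ℕ) (b : Bool × ℕ × List (List ℕ × ℕ)) : Rule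
  | zcov (r : Bool) (s T x : ℕ) (cs : List ℕ) (l : ℕ) : Rule

namespace Orc

variable (O : Orc) (t : Tr) (fs : List Fact)

noncomputable def oMrec (id : ℕ) (r : Bool) (m : Mx) (ws : List (List ℕ × Mx))
    (us : List (List ℕ × ℕ)) : List Fact :=
  fn (O.dS m) fun a => fn (O.dT m) fun u =>
    guard (band (allL (fun p => O.isDeg (tS r a) (tT r u) p.2) ws)
      (O.chkM t fs r a u (O.act m 0 0 [1]) (fun P => O.wsum t 0 0 [1] P ws) us)) [.mrec id r m ws]

noncomputable def oLeib (id s T : ℕ) (xs ls : List ℕ) : List Fact :=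
  useRec id (fun r m ws => O.jobs t r (O.act m) (fun x => O.wsum t s T x .nil ws) (O.dS m)
    (O.dT m) s T (mapL ul ls) xs) fs

noncomputable def oBok (r : Bool) (s T : ℕ) (xs ls : List ℕ) : List Fact :=
  O.jobs t r O.bact (fun _ => .nil) 1 0 s T (mapL ul ls) xs

noncomputable def oDd (r r' : Bool) (s T : ℕ) (xs ls : List ℕ) : List Fact :=
  O.ddJobs t r r' s T (mapL ul ls) xs

noncomputable def oPeq (r : Bool) (s T x : ℕ) (ls : List ℕ) : List Fact :=
  guard (band (O.okc s T) (band (hasF fs (.perm s T x))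
      (imp r (allL (O.ann t (Nat.add s 4) (Nat.add T 1)) (mapL ul ls)))))
    (mapL (fun l => .eqf (LE r s T (O.ux s T x) (ul l))) ls)

noncomputable def oPerm (s T x : ℕ) (us : List (List ℕ × ℕ)) (k₀ : ℕ) : List Fact :=
  guard (band (O.okc s T) (band (O.chkM t fs true s T (O.ux s T x) (fun P => P) us)
    (clRange fs (Nat.add s 13) (Nat.add T 3) (Nat.add s 1) k₀))) [.perm s T x]

noncomputable def oPact (m : Mx) (mu s T y z : ℕ) : List Fact :=
  fn (O.dS m) fun a => fn (O.dT m) fun u => fn (Nat.add a s) fun s' => fn (Nat.add u T) fun T' =>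
    guard (band (O.okc a u) (band (O.okc s T) (band (O.okc s' T')
      (band (hasF fs (.perm a u mu)) (band (hasF fs (.perm s T y))
        (band (veq (O.act m 0 0 [1]) (O.ux a u mu))
          (veq (O.act m s T (O.ux s T y)) (O.ux s' T' z)))))))) [.perm s' T' z]

noncomputable def oPbok (s T y z : ℕ) : List Fact :=
  fn (Nat.add s 1) fun s' =>
    guard (band (O.okc s T) (band (O.okc s' T) (band (hasF fs (.perm s T y))
      (veq (O.bact s T (O.ux s T y)) (O.ux s' T z))))) [.perm s' T z]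

noncomputable def oPadd (s T x y z : ℕ) : List Fact :=
  guard (band (O.okc s T) (band (hasF fs (.perm s T x)) (band (hasF fs (.perm s T y))
    (veq (vadd (O.ux s T x) (O.ux s T y)) (O.ux s T z))))) [.perm s T z]

noncomputable def oCl (s T q : ℕ) (cs : List ℕ) (bs : List (Bool × ℕ × List (List ℕ × ℕ))) :
    List Fact :=
  guard (band (O.okc s T) (band (Nat.ble q s) (O.allBd t fs s T q (O.cov t true s T cs) bs)))
    [.cl s T q]

noncomputable def oSeed5 (h b : Mx) (l : ℕ) : List Fact :=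
  guard (band (O.line 1 1 h) (band (O.line 2 3 b) (band (O.ann t 2 9 (ul l))
    (nz (ddot (ul l) (O.act (.mul h (.mul b (.mul b b))) 0 0 [1])))))) [.bad]

noncomputable def oSeed9 (b : Mx) (cs : List ℕ) (l : ℕ) : List Fact :=
  guard (band (O.line 2 3 b) (band (O.okc 1 18)
    (band (allN (fun i => band (hasF fs (.perm 1 18 (Nat.pow 3 i)))
        (veq (O.ux 1 18 (Nat.pow 3 i)) (unit i))) (O.dim 1 18))
      (band (O.okc 5 19) (band (O.ann t 9 20 (ul l))
        (band (allL (fun v => oisz t (O.LD t true 5 19 v (ul l))) (O.cov t false 5 19 cs))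
          (nz (ddot (ul l) (O.act
            (.mul b (.mul b (.mul b (.mul b (.mul b (.mul b b)))))) 0 0 [1]))))))))) [.bad]

noncomputable def oNe (r : Bool) (s T x l : ℕ) : List Fact :=
  guard (band (O.okc s T) (band (hasF fs (.ne r s T x l))
    (Nat.beq (dig t (LE r s T (O.ux s T x) (ul l))) 2))) [.bad]

noncomputable def isLd (j T x : ℕ) : Bool :=
  band (Nat.ble j 3) (band (O.okc 1 T)
    (nz (ddot (unit (O.lead j)) (O.bact 1 T (O.ux 1 T x)))))

noncomputable def oGoal3 (j x : ℕ) : List Fact :=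
  fn (Nat.pow 3 (Nat.add j 1)) fun T =>
    guard (band (O.isLd j T x) (hasF fs (.perm 1 T x))) [.goal j]

noncomputable def oGoalA (j x z k₀ : ℕ) : List Fact :=
  fn (Nat.pow 3 (Nat.add j 1)) fun T => fn (Nat.add T 1) fun T₁ =>
    guard (band (O.isLd j T x) (band (O.okc 5 T₁) (band (hasF fs (.perm 5 T₁ z))
      (band (O.chkD t false 1 T (O.ux 1 T x)
          (.cons (.cons 0 true .nil) (O.bact 5 T₁ (O.ux 5 T₁ z)) .nil))
        (clRange fs 10 (Nat.add T 2) 5 k₀))))) [.goal (Nat.add 4 j)]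

noncomputable def oGoal1 (cs : List ℕ) : List Fact :=
  guard (band (O.okc 2 9) (allL (fun _ => false) (O.cov t true 2 9 cs))) [.goal 8]

noncomputable def oIm (s T v x : ℕ) (us : List (List ℕ × ℕ)) : List Fact :=
  guard (O.chkI t fs s T (O.ux (Nat.add s 5) (Nat.add T 1) v) x us) [.im s T v]

noncomputable def oPbd (s T v : ℕ) (b : Bool × ℕ × List (List ℕ × ℕ)) : List Fact :=
  guard (band (O.okc s T) (O.bdOK t fs s T 0 (O.ux s T v) b)) [.perm s T v]

noncomputable def oZcov (r : Bool) (s T x : ℕ) (cs : List ℕ) (l : ℕ) : List Fact :=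
  fn (tS r s) fun s₁ => fn (tT r T) fun T₁ =>
    guard (band (O.okc s T) (band (O.okc s₁ T₁) (band (imp r (O.ker t s T (O.ux s T x)))
      (allL (fun v => Nat.beq (ddot (ul l) v) 0) (O.cov t true s₁ T₁ cs)))))
      [.eqf (LE r s T (O.ux s T x) (ul l))]

/-- The facts which a rule produces. -/
noncomputable def out (r : Rule) : List Fact :=
  Rule.rec (O.oMrec t fs) (O.oLeib t fs) (O.oBok t) (O.oDd t) (O.oPeq t fs) (O.oPerm t fs)
    (O.oPact fs) (O.oPbok fs) (O.oPadd fs) (O.oCl t fs) (O.oSeed5 t) (O.oSeed9 t fs) (O.oNe t fs)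
    (O.oGoal3 fs) (O.oGoalA t fs) (O.oGoal1 t) (O.oIm t fs) (O.oPbd t fs) (O.oZcov t) r

end Orc

/-- States. -/
structure St where
  tr : Tr
  fs : List Fact
  bad : Bool

noncomputable def solve (t : Tr) (fs : List Fact) (b : Bool) (K : St → St) (f : Fm) : St :=
  Fm.rec (K ⟨t, fs, b⟩) (fun v c r _ =>
    Nat.rec (Fm.rec (K ⟨t, fs, true⟩) (fun _ _ _ _ => K ⟨t, fs, b⟩) r)
      (fun _ _ => force (Bool.rec (fneg r) r c) fun g => ins g 64 t v fun t' => K ⟨t', fs, b⟩)
      v) f

noncomputable def addF (f : Fact) (st : St) (K : St → St) : St :=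
  St.rec (fun t fs b => Fact.rec (fun g => solve t fs b K (red t g)) (K ⟨t, fs, true⟩)
    (fun _ _ _ _ => K ⟨t, f :: fs, b⟩) (fun _ _ _ => K ⟨t, f :: fs, b⟩)
    (fun _ _ _ => K ⟨t, f :: fs, b⟩) (fun _ _ _ _ _ => K ⟨t, f :: fs, b⟩)
    (fun _ => K ⟨t, f :: fs, b⟩) (fun _ _ _ => K ⟨t, f :: fs, b⟩) f) st

noncomputable def addAll (l : List Fact) : St → (St → St) → St :=
  List.rec (fun st K => K st) (fun f _ ih st K => addF f st fun st' => ih st' K) l

noncomputable def has (t : Tr) (fs : List Fact) (f : Fact) : Bool :=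
  Fact.rec (isz t) false (fun _ _ _ _ => hasF fs f) (fun _ _ _ => hasF fs f)
    (clOK fs) (fun _ _ _ _ _ => hasF fs f) (fun _ => hasF fs f) (fun _ _ _ => hasF fs f) f

noncomputable def hasAll (l : List Fact) (st : St) : Bool :=
  St.rec (fun t fs b => bor b (allL (has t fs) l)) st

/-- Certificates. -/
inductive Pf where
  | done : Pf
  | step (r : Rule) (k : Pf) : Pf
  | cases (φ : List ℕ) (p0 p1 p2 : Pf) (ex : List Fact) (k : Pf) : Pf

noncomputable def Orc.run (O : Orc) (p : Pf) : St → St :=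
  Pf.rec (fun st => st)
    (fun r _ ih st => St.rec (fun t fs b => addAll (O.out t fs r) ⟨t, fs, b⟩ ih) st)
    (fun φ _ _ _ ex _ i0 i1 i2 ih st =>
      Bool.rec (ih st) (addAll ex st ih)
        (band (hasAll ex (addF (.eqf (dec φ)) st i0))
          (band (hasAll ex (addF (.eqf (fadd (dec φ) (.cons 0 true .nil))) st i1))
            (hasAll ex (addF (.eqf (fadd (dec φ) (.cons 0 false .nil))) st i2))))) p

/-- A list of rules. -/
noncomputable def steps (l : List Rule) (k : Pf) : Pf := List.rec k (fun r _ ih => .step r ih) l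

/-- The facts `x_v = c` with the codes `3 v + c`. -/
noncomputable def cfacts (l : List ℕ) (k : List Fact) : List Fact :=
  List.rec k (fun a _ ih => fn (Nat.div a 3) fun v =>
    .eqf (.cons v false (fd (Nat.mod a 3) .nil (.cons 0 true .nil) (.cons 0 false .nil) .nil))
      :: ih) l

/-- The facts `outs` follow from the facts `ins`. -/
noncomputable def Orc.chunk (O : Orc) (ins : List Fact) (p : Pf) (outs : List Fact) : Bool :=
  hasAll outs (addAll ins ⟨.leaf, [], false⟩ (O.run p))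

end Vale.Agent.P236E
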