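import Vale.Agent.P236E.SS
import Vale.Agent.P236L.CupAlg
import Vale.Agent.P236S.Bd
import Vale.Agent.P257.H545.FinalP

/-!
# P236, block ENG: the cohomology of `Cob Laz / 3` as one vector space

* `Z s T`: cocycles modulo `3`; `A`: the sum of the cohomology groups; `cl s T : Z s T →+ A`;
* `exists_lin`, `exists_op`: linear maps on `A` from maps and relations on cocycles;
* `mul`, `bk`: the product and the Bockstein.
-/

namespace Vale.Agent.P236E

open Vale.Agent.P251 Vale.Agent.P251.F Vale.Agent.P251.I Vale.Agent.P257 Vale.Agent.P257.H314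
  Vale.Agent.P236K Vale.Agent.P236L
open Vale.Agent.P251.S hiding IC

instance : Fact (Nat.Prime 3) := ⟨Nat.prime_three⟩

lemma mem_IC {s : ℕ} {x : Cob Laz s} : x ∈ IC 3 1 s ↔ ∃ y, x = (3 : ℤ) • y := by
  have hI : IC 3 1 s = Ideal.span {((3 : ℕ) : Cob Laz s)} := by
    rw [IC, Laz.I, Ih, Ideal.map_span]
    congr 1
    ext x
    constructor
    · rintro ⟨_, ⟨i, hi, rfl⟩, rfl⟩
      obtain rfl : i = 0 := by omega
      rw [vv_zero, map_natCast]
      rfl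
    · rintro rfl
      exact ⟨_, ⟨0, Nat.one_pos, vv_zero 3 _⟩, map_natCast _ _⟩
  rw [hI, Ideal.mem_span_singleton]
  refine exists_congr fun y => ?_
  rw [zsmul_eq_mul]
  push_cast
  rfl

lemma three_mem {s : ℕ} (y : Cob Laz s) : (3 : ℤ) • y ∈ IC 3 1 s := mem_IC.2 ⟨y, rfl⟩

lemma exists_div {s : ℕ} {w : ℤ} {x : Cob Laz s} (hw : Cob.IsWt w x) (hx : x ∈ IC 3 1 s) :
    ∃ y : Cob.wt Laz s w, x = (3 : ℤ) • y.1 := by
  obtain ⟨y, hy⟩ := mem_IC.1 hx
  refine ⟨⟨Cob.pr Laz s w y, Cob.isWt_pr w y⟩, ?_⟩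
  have h3 := congrArg (Cob.pr Laz s w) hy
  rwa [Cob.pr_eq_self hw, map_zsmul] at h3

lemma three_cancel {s : ℕ} {x y : Cob Laz s} (h : (3 : ℤ) • x = (3 : ℤ) • y) : x = y := by
  rw [zsmul_eq_mul, zsmul_eq_mul] at h
  exact mul_left_cancel₀ (Int.cast_ne_zero.2 (by norm_num)) h

/-- The cocycles modulo `3`. -/
def Z (s T : ℕ) : AddSubgroup (Co s T) where
  carrier := {z | IsZ z}
  zero_mem' := by simp [IsZ]
  add_mem' {a b} ha hb := by
    change Cob.d s (a.1 + b.1) ∈ IC 3 1 (s + 1)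
    rw [map_add]
    exact add_mem ha hb
  neg_mem' {a} ha := by
    change Cob.d s (-a.1) ∈ IC 3 1 (s + 1)
    rw [map_neg]
    exact neg_mem ha

lemma isB_of_mem {s T : ℕ} {z : Co s T} (h : z.1 ∈ IC 3 1 s) : IsB z := by
  cases s with
  | zero => exact h
  | succ s => exact ⟨0, by simpa using h⟩

/-- The coboundaries modulo `3`. -/
def Bo (s T : ℕ) : AddSubgroup (Z s T) where
  carrier := {z | IsB z.1}
  zero_mem' := isB_of_mem (zero_mem _)
  add_mem' {a b} ha hb := by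
    cases s with
    | zero => exact add_mem (s := IC 3 1 0) ha hb
    | succ s =>
      obtain ⟨y, hy⟩ := ha
      obtain ⟨y', hy'⟩ := hb
      refine ⟨y + y', ?_⟩
      have := add_mem hy hy'
      rwa [← add_sub_add_comm, ← map_add] at this
  neg_mem' {a} ha := by
    cases s with
    | zero => exact neg_mem (s := IC 3 1 0) ha
    | succ s =>
      obtain ⟨y, hy⟩ := ha
      refine ⟨-y, ?_⟩
      have := neg_mem hy
      rwa [neg_sub', ← map_neg] at this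

/-- The sum of the cohomology groups. -/
def A : Type := DirectSum (ℕ × ℕ) fun p => Z p.1 p.2 ⧸ Bo p.1 p.2

noncomputable instance : AddCommGroup A :=
  inferInstanceAs (AddCommGroup (DirectSum (ℕ × ℕ) fun p => Z p.1 p.2 ⧸ Bo p.1 p.2))

/-- The class of a cocycle. -/
noncomputable def cl (s T : ℕ) : Z s T →+ A :=
  (DirectSum.of (fun p : ℕ × ℕ => Z p.1 p.2 ⧸ Bo p.1 p.2) (s, T)).comp
    (QuotientAddGroup.mk' (Bo s T))

lemma cl_eq_zero {s T : ℕ} {z : Z s T} : cl s T z = 0 ↔ IsB z.1 := by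
  have h := DirectSum.of_injective (β := fun p : ℕ × ℕ => Z p.1 p.2 ⧸ Bo p.1 p.2) (s, T)
  exact ((injective_iff_map_eq_zero' _).1 h _).trans (QuotientAddGroup.eq_zero_iff z)

lemma cl_eq {s T : ℕ} {z z' : Z s T} : cl s T z = cl s T z' ↔ IsB (z - z').1 := by
  rw [← sub_eq_zero, ← map_sub, cl_eq_zero]

lemma cl_congr {s T : ℕ} {z z' : Z s T} (h : z.1.1 - z'.1.1 ∈ IC 3 1 s) :
    cl s T z = cl s T z' := cl_eq.2 (isB_of_mem h)

lemma hom_ext {M : Type} [AddCommGroup M] {f g : A →+ M}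
    (h : ∀ s T z, f (cl s T z) = g (cl s T z)) : f = g := by
  refine DirectSum.addHom_ext fun p y => ?_
  obtain ⟨z, rfl⟩ := QuotientAddGroup.mk_surjective y
  exact h p.1 p.2 z

lemma three_nsmul (x : A) : 3 • x = 0 := by
  have h : (nsmulAddMonoidHom 3 : A →+ A) = 0 := hom_ext fun s T z => by
    change 3 • cl s T z = 0
    rw [← map_nsmul, cl_eq_zero]
    exact isB_of_mem (three_mem z.1.1)
  exact DFunLike.congr_fun h x

noncomputable instance : Module F A := AddCommGroup.zmodModule three_nsmul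

lemma exists_lin {M : Type} [AddCommGroup M] [Module F M] (f : ∀ s T, Z s T →+ M)
    (hf : ∀ s T (z : Z s T), IsB z.1 → f s T z = 0) :
    ∃ φ : A →ₗ[F] M, ∀ s T z, φ (cl s T z) = f s T z :=
  ⟨AddMonoidHom.toZModLinearMap 3 (DirectSum.toAddMonoid
    (β := fun p : ℕ × ℕ => Z p.1 p.2 ⧸ Bo p.1 p.2) fun p =>
      QuotientAddGroup.lift (Bo p.1 p.2) (f p.1 p.2) (hf p.1 p.2)), fun s T z =>
    DirectSum.toAddMonoid_of (β := fun p : ℕ × ℕ => Z p.1 p.2 ⧸ Bo p.1 p.2) (fun p =>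
      QuotientAddGroup.lift (Bo p.1 p.2) (f p.1 p.2) (hf p.1 p.2)) (s, T) (z : _ ⧸ Bo s T)⟩

lemma lin_ext {M : Type} [AddCommGroup M] [Module F M] {f g : A →ₗ[F] M}
    (h : ∀ s T z, f (cl s T z) = g (cl s T z)) : f = g :=
  LinearMap.toAddMonoidHom_injective (hom_ext h)

/-- The cell `(s, T)`. -/
noncomputable def G (s T : ℕ) : Submodule F A := AddSubgroup.toZModSubmodule 3 (cl s T).range

lemma mem_G {s T : ℕ} {x : A} : x ∈ G s T ↔ ∃ z, cl s T z = x := Iff.rfl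

lemma cl_mem {s T : ℕ} (z : Z s T) : cl s T z ∈ G s T := ⟨z, rfl⟩

lemma cast_smul (n : ℤ) (x : A) : (n : F) • x = n • x := Int.cast_smul_eq_zsmul F n x

lemma sign_smul (a : ℕ) (x : A) : (-1 : F) ^ a • x = (-1 : ℤ) ^ a • x := by
  rw [← cast_smul]
  push_cast
  rfl

/-- A linear section of a linear relation. -/
lemma exists_sec {M N : Type} [AddCommGroup M] [Module F M] [AddCommGroup N] [Module F N]
    (W : Submodule F (M × N)) : ∃ φ : M →ₗ[F] N, (∀ x, ∃ x', (x', φ x) ∈ W) ∧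
      ∀ x y, (x, y) ∈ W → (x, φ x) ∈ W := by
  let p : W →ₗ[F] M := (LinearMap.fst F M N).comp W.subtype
  obtain ⟨σ, hσ⟩ := p.rangeRestrict.exists_rightInverse_of_surjective p.range_rangeRestrict
  obtain ⟨r, hr⟩ := (LinearMap.range p).subtype.exists_leftInverse_of_injective
    (Submodule.ker_subtype _)
  refine ⟨(LinearMap.snd F M N).comp (W.subtype.comp (σ.comp r)),
    fun x => ⟨_, (σ (r x)).2⟩, fun x y h => ?_⟩
  have h1 : r x = ⟨x, ⟨(x, y), h⟩, rfl⟩ := LinearMap.congr_fun hr ⟨x, ⟨(x, y), h⟩, rfl⟩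
  have h2 : (σ (r x)).1.1 = x := by
    have := congrArg Subtype.val (LinearMap.congr_fun hσ (r x))
    rw [h1] at this ⊢
    exact this
  have h3 := (σ (r x)).2
  rwa [← Prod.mk.eta (p := (σ (r x)).1), h2] at h3

/-- Operators from additive relations. -/
lemma exists_op (a b : ℕ) (W : ∀ s T, AddSubgroup (Z s T × Z (s + a) (T + b)))
    (hB : ∀ s T (z : Z s T), IsB z.1 → ∃ y, (z, y) ∈ W s T ∧ IsB y.1) :
    ∃ φ : A →ₗ[F] A, (∀ s T x, x ∈ G s T → φ x ∈ G (s + a) (T + b)) ∧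
      ∀ s T z y, (z, y) ∈ W s T → ∃ y', (z, y') ∈ W s T ∧ φ (cl s T z) = cl _ _ y' := by
  have h := fun s T => exists_sec (AddSubgroup.toZModSubmodule 3
    ((W s T).map ((cl s T).prodMap (cl (s + a) (T + b)))))
  choose ψ h1 h2 using h
  obtain ⟨φ, hφ⟩ := exists_lin (fun s T => (ψ s T).toAddMonoidHom.comp (cl s T)) fun s T z hz => by
    rw [AddMonoidHom.comp_apply, cl_eq_zero.2 hz, map_zero]
  refine ⟨φ, ?_, fun s T z y h => ?_⟩
  · rintro s T _ ⟨z, rfl⟩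
    obtain ⟨_, q, -, hq⟩ := h1 s T (cl s T z)
    exact ⟨q.2, (congrArg Prod.snd hq).trans (hφ s T z).symm⟩
  · obtain ⟨q, hq, e⟩ := h2 s T _ _ ⟨(z, y), h, rfl⟩
    obtain ⟨y₀, h3, h4⟩ := hB s T (z - q.1) (cl_eq.1 (congrArg Prod.fst e).symm)
    refine ⟨y₀ + q.2, ?_, ?_⟩
    · have := add_mem h3 hq
      rwa [show (z - q.1, y₀) + q = (z, y₀ + q.2) from Prod.ext (sub_add_cancel _ _) rfl] at this
    · rw [map_add, cl_eq_zero.2 h4, zero_add, hφ]
      exact (congrArg Prod.snd e).symm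

/-! ### The product -/

/-- The product of cocycles. -/
noncomputable def cupZ {a s s' U T T' : ℕ} (h : a + s = s') (hT : U + T = T')
    (x : Z a U) (z : Z s T) : Z s' T' := ⟨cupT h hT x.1 z.1, d_cupc_mem h x.2 z.2⟩

lemma isB_left {a s s' U T T' : ℕ} (h : a + s = s') (hT : U + T = T') {x : Z a U} (hx : IsB x.1)
    (z : Z s T) : IsB (cupZ h hT x z).1 := by
  cases a with
  | zero => exact isB_of_mem (cupc_mem_left h hx _)
  | succ a =>
    obtain rfl : s' = a + s + 1 := by omega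
    obtain ⟨e, he⟩ := hx
    refine ⟨cupT rfl hT e z.1, ?_⟩
    change cupc h x.1.1 z.1.1 - Cob.d _ (cupc rfl e.1 z.1.1) ∈ _
    rw [d_cupc rfl h rfl, ← sub_sub, ← cupc_sub_left]
    exact sub_mem (cupc_mem_left _ he _) (zsmul_mem (cupc_mem_right _ _ z.2) _)

lemma isB_right {a s s' U T T' : ℕ} (h : a + s = s') (hT : U + T = T') (x : Z a U) {z : Z s T}
    (hz : IsB z.1) : IsB (cupZ h hT x z).1 := by
  cases s with
  | zero => exact isB_of_mem (cupc_mem_right h _ hz)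
  | succ s =>
    subst h
    obtain ⟨e, he⟩ := hz
    refine ⟨(-1 : ℤ) ^ a • cupT rfl hT x.1 e, ?_⟩
    change cupc rfl x.1.1 z.1.1 - Cob.d _ ((-1 : ℤ) ^ a • cupc rfl x.1.1 e.1) ∈ _
    rw [map_zsmul, d_cupc rfl (by omega) rfl, smul_add, smul_smul, ← mul_pow, neg_one_mul, neg_neg,
      one_pow, one_smul, sub_add_eq_sub_sub_swap, ← cupc_sub_right]
    exact sub_mem (cupc_mem_right _ _ he) (zsmul_mem (cupc_mem_left _ x.2 _) _)

lemma exists_mulA : ∃ μ : A →ₗ[F] A →ₗ[F] A, ∀ a U s T (x : Z a U) (z : Z s T),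
    μ (cl a U x) (cl s T z) = cl _ _ (cupZ rfl rfl x z) := by
  have h : ∀ a U (x : Z a U), ∃ φ : A →ₗ[F] A, ∀ s T (z : Z s T),
      φ (cl s T z) = cl _ _ (cupZ rfl rfl x z) := fun a U x =>
    exists_lin (fun s T => AddMonoidHom.mk' (fun z => cl _ _ (cupZ rfl rfl x z)) fun z z' => by
      rw [← map_add]
      exact congrArg _ (Subtype.ext (Subtype.ext (cupc_add_right _ _ _ _))))
      fun s T z hz => cl_eq_zero.2 (isB_right _ _ x hz)
  choose ψ hψ using h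
  obtain ⟨μ, hμ⟩ := exists_lin (fun a U => AddMonoidHom.mk' (ψ a U) fun x x' =>
    lin_ext fun s T z => by
      rw [LinearMap.add_apply, hψ, hψ, hψ, ← map_add]
      exact congrArg _ (Subtype.ext (Subtype.ext (cupc_add_left _ _ _ _))))
    fun a U x hx => lin_ext fun s T z => (hψ a U x s T z).trans (cl_eq_zero.2 (isB_left _ _ hx z))
  exact ⟨μ, fun a U s T x z => by rw [hμ]; exact hψ a U x s T z⟩

/-- The product. -/
noncomputable def mul : A →ₗ[F] A →ₗ[F] A := exists_mulA.choose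

lemma mul_cl {a s s' U T T' : ℕ} (h : a + s = s') (hT : U + T = T') (x : Z a U) (z : Z s T) :
    mul (cl a U x) (cl s T z) = cl s' T' (cupZ h hT x z) := by
  subst h hT
  exact exists_mulA.choose_spec a U s T x z

lemma mul_mem {a U s T : ℕ} {x y : A} (hx : x ∈ G a U) (hy : y ∈ G s T) :
    mul x y ∈ G (a + s) (U + T) := by
  obtain ⟨x, rfl⟩ := hx
  obtain ⟨y, rfl⟩ := hy
  exact ⟨_, (mul_cl rfl rfl x y).symm⟩

lemma mul_assoc' {a U b V s T : ℕ} {x y z : A} (hx : x ∈ G a U) (hy : y ∈ G b V)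
    (hz : z ∈ G s T) : mul (mul x y) z = mul x (mul y z) := by
  obtain ⟨x, rfl⟩ := hx
  obtain ⟨y, rfl⟩ := hy
  obtain ⟨z, rfl⟩ := hz
  rw [mul_cl rfl rfl, mul_cl rfl rfl, mul_cl rfl rfl,
    mul_cl (add_assoc _ _ _).symm (add_assoc _ _ _).symm]
  exact congrArg _ (Subtype.ext (Subtype.ext (cupc_assoc _ _ _ _ _ _ _)))

/-- The unit. -/
noncomputable def oneZ : Z 0 0 := ⟨oneC, by
  change Cob.d 0 (1 : Cob Laz 0) ∈ IC 3 1 1
  rw [Cob.d_apply]
  simp⟩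

lemma mul_one' {s T : ℕ} {x : A} (hx : x ∈ G s T) : mul x (cl 0 0 oneZ) = x := by
  obtain ⟨x, rfl⟩ := hx
  rw [mul_cl (add_zero _) (add_zero _)]
  exact congrArg _ (Subtype.ext (Subtype.ext (P236S.cupc_one_right _ _)))

lemma one_mul' {s T : ℕ} {x : A} (hx : x ∈ G s T) : mul (cl 0 0 oneZ) x = x := by
  obtain ⟨x, rfl⟩ := hx
  rw [mul_cl (zero_add _) (zero_add _)]
  exact congrArg _ (Subtype.ext (Subtype.ext (P236S.cupc_one_left _ _)))

/-! ### The Bockstein -/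

lemma isZ_of_d {s T : ℕ} {x : Cob Laz s} {y : Co (s + 1) T} (h : Cob.d s x = (3 : ℤ) • y.1) :
    y ∈ Z (s + 1) T := by
  have h1 := Cob.d_d x
  rw [h, map_zsmul, ← smul_zero (3 : ℤ)] at h1
  change Cob.d _ y.1 ∈ IC 3 1 (s + 1 + 1)
  rw [three_cancel h1]
  exact zero_mem _

lemma exists_bk {s T : ℕ} (z : Z s T) : ∃ y : Z (s + 1) T, Cob.d s z.1.1 = (3 : ℤ) • y.1.1 := by
  obtain ⟨y, hy⟩ := exists_div (Cob.dwt Laz s _ z.1).2 z.2
  exact ⟨⟨y, isZ_of_d hy⟩, hy⟩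

/-- The relation `d z = 3 y`. -/
def Wb (s T : ℕ) : AddSubgroup (Z s T × Z (s + 1) (T + 0)) where
  carrier := {q | Cob.d s q.1.1.1 = (3 : ℤ) • q.2.1.1}
  zero_mem' := by simp
  add_mem' {a b} ha hb := by
    change Cob.d s (a.1.1.1 + b.1.1.1) = (3 : ℤ) • (a.2.1.1 + b.2.1.1)
    rw [map_add, smul_add, ha, hb]
  neg_mem' {a} ha := by
    change Cob.d s (-a.1.1.1) = (3 : ℤ) • (-a.2.1.1)
    rw [map_neg, smul_neg, ha]

lemma exists_bkA : ∃ φ : A →ₗ[F] A, ∀ s T (z : Z s T) (y : Z (s + 1) T),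
    Cob.d s z.1.1 = (3 : ℤ) • y.1.1 → φ (cl s T z) = cl _ _ y := by
  obtain ⟨φ, -, h⟩ := exists_op 1 0 Wb fun s T z hz => by
    obtain ⟨y, hy⟩ := exists_bk z
    refine ⟨y, hy, ?_⟩
    have key : ∀ e : Cob Laz s, Cob.d s e = 0 → Cob.IsWt (2 * (T : ℤ)) e →
        z.1.1 - e ∈ IC 3 1 s → IsB y.1 := fun e he hw h => by
      obtain ⟨f, hf⟩ := exists_div (Cob.mem_wt.1 (sub_mem z.1.2 (Cob.mem_wt.2 hw))) h
      have h1 := congrArg (Cob.d s) hf
      rw [map_sub, he, sub_zero, hy, map_zsmul] at h1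
      exact ⟨f, by rw [three_cancel h1, sub_self]; exact zero_mem _⟩
    cases s with
    | zero => exact key 0 (map_zero _) (Cob.mem_wt.1 (zero_mem _)) (by rw [sub_zero]; exact hz)
    | succ s =>
      obtain ⟨e, he⟩ := hz
      exact key _ (Cob.d_d _) (Cob.dwt Laz s _ e).2 he
  refine ⟨φ, fun s T z y hy => ?_⟩
  obtain ⟨y', h1, h2⟩ := h s T z y hy
  rw [h2]
  exact congrArg (cl (s + 1) T) (Subtype.ext (Subtype.ext (three_cancel (h1.symm.trans hy))))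

/-- The Bockstein. -/
noncomputable def bk : A →ₗ[F] A := exists_bkA.choose

lemma bk_cl {s T : ℕ} {z : Z s T} {y : Z (s + 1) T} (h : Cob.d s z.1.1 = (3 : ℤ) • y.1.1) :
    bk (cl s T z) = cl _ _ y := exists_bkA.choose_spec s T z y h

lemma bk_mem {s T : ℕ} {x : A} (hx : x ∈ G s T) : bk x ∈ G (s + 1) T := by
  obtain ⟨z, rfl⟩ := hx
  obtain ⟨y, hy⟩ := exists_bk z
  exact ⟨y, (bk_cl hy).symm⟩

lemma bk_mul {a U s T : ℕ} {x y : A} (hx : x ∈ G a U) (hy : y ∈ G s T) :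
    bk (mul x y) = mul (bk x) y + (-1 : F) ^ a • mul x (bk y) := by
  obtain ⟨x, rfl⟩ := hx
  obtain ⟨y, rfl⟩ := hy
  obtain ⟨x', hx⟩ := exists_bk x
  obtain ⟨y', hy⟩ := exists_bk y
  have h1 : a + 1 + s = a + s + 1 := by omega
  rw [bk_cl hx, bk_cl hy, mul_cl rfl rfl, mul_cl h1 rfl, mul_cl (add_assoc _ _ _).symm rfl,
    sign_smul, ← map_zsmul, ← map_add]
  refine bk_cl ?_
  change Cob.d _ (cupc rfl x.1.1 y.1.1) =
    (3 : ℤ) • (cupc h1 x'.1.1 y.1.1 + (-1 : ℤ) ^ a • cupc rfl x.1.1 y'.1.1)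
  rw [d_cupc rfl h1 rfl, hx, hy, cupc_zsmul_left, cupc_zsmul_right, smul_add, smul_comm]

/-! ### Vanishing -/

lemma isB_of_algVan {s T : ℕ} (h : AlgVan 3 1 s (2 * (T : ℤ))) (z : Z s T) : IsB z.1 := by
  cases s with
  | zero => exact h z.1.1 z.1.2 z.2
  | succ s =>
    obtain ⟨y, hy, e⟩ := h z.1.1 z.1.2 z.2
    exact ⟨⟨y, hy⟩, e⟩

lemma algVan_van {s T : ℕ} (h : 2 * T + 1 < 3 * s) : AlgVan 3 1 s (2 * (T : ℤ)) := by
  have e : 2 * (T : ℤ) = (((3 : ℕ) : ℤ) - 1) * (T : ℤ) := by push_cast; ring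
  rw [e]
  refine algVan_of_stab le_rfl fun k e he => ?_
  have h0 : (0 : ℤ) ≤ ∑ i ∈ Finset.range k, (e i : ℤ) * Wn 3 (1 + i) := by positivity
  obtain ⟨W, hW⟩ : ∃ W : ℕ, (T : ℤ) - ∑ i ∈ Finset.range k, (e i : ℤ) * Wn 3 (1 + i) = W :=
    ⟨_, (Int.toNat_of_nonneg (by omega)).symm⟩
  rw [hW]
  refine (H545.cmpP (H545.infCmp 3)).stabVan_of_van ((H545.van_iff _ _).2 (H545.boundP s W ?_))
  intro x hs hx
  have := H327.Mon.line (p := 3) (by norm_num) x
  omega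

lemma van {s T : ℕ} {x : A} (h : 2 * T + 1 < 3 * s) (hx : x ∈ G s T) : x = 0 := by
  obtain ⟨z, rfl⟩ := hx
  exact cl_eq_zero.2 (isB_of_algVan (algVan_van h) z)

end Vale.Agent.P236E
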