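import Vale.Agent.P236E.Coh
import Vale.Agent.P236S.Ex
import Vale.Agent.P236L.Mul

/-!
# P236, block ENG: the differentials as linear maps

`V = S / 3`.  `PP`, `BB t`: permanent cycles and boundaries in `A`; `d5`, `d9`: the differentials.
-/

open CategoryTheory MonoidalCategory Limits Pretriangulated

set_option linter.unusedSectionVars false

universe v u

namespace Vale.Agent.P236E

open Vale.Agent.P251 Vale.Agent.P251.T Vale.Agent.P251.F Vale.Agent.P251.I Vale.Agent.P251.M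
  Vale.Agent.P257 Vale.Agent.P257.H314 Vale.Agent.P236K Vale.Agent.P236L Vale.Agent.P236S
open Vale.Agent.P251.S hiding IC

variable {𝒯 : Type u} [Category.{v} 𝒯] [Preadditive 𝒯] [HasZeroObject 𝒯]
    [HasShift 𝒯 ℤ] [∀ n : ℤ, (shiftFunctor 𝒯 n).Additive] [Pretriangulated 𝒯]
    [MonoidalCategory 𝒯] [SymmetricCategory 𝒯] [TensorTriangulated 𝒯] [HasCoproducts.{0} 𝒯]
    (D : MUData 𝒯) (U : UnitCof D.R) {V : 𝒯} (i : 𝟙_ 𝒯 ⟶ V)

/-- Permanent cycles. -/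
noncomputable def PP (s T : ℕ) : Submodule F A :=
  AddSubgroup.toZModSubmodule 3 (AddSubgroup.map (cl s T)
    { carrier := {z | Perm D U i z.1}
      zero_mem' := (bd_zero (Nat.zero_le s)).perm
      add_mem' := fun ha hb => ha.add hb
      neg_mem' := fun {a} ha => by
        have := ha.zsmul (-1)
        rwa [neg_one_zsmul] at this })

/-- Boundaries. -/
def BB (t s T : ℕ) : Set A := {x | ∃ z : Z s T, Bd D U i t z.1 ∧ cl s T z = x}

/-- The relation `Dif`. -/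
def Wd (k s T : ℕ) : AddSubgroup (Z s T × Z (s + (4 * k + 1)) (T + k)) where
  carrier := {q | Dif D U i q.1.1 q.2.1}
  zero_mem' := dif_zero (by omega) (by push_cast; ring)
  add_mem' ha hb := ha.add hb
  neg_mem' ha := ha.neg

variable {D U i}

lemma mem_PP {s T : ℕ} {x : A} : x ∈ PP D U i s T ↔ ∃ z : Z s T, Perm D U i z.1 ∧ cl s T z = x :=
  Iff.rfl

lemma Bd.cast {t s s' : ℕ} {w w' : ℤ} {x : Cob.wt Laz s w} {y : Cob.wt Laz s' w'}
    (H : Bd D U i t x) (hs : s = s') (hw : w = w') (h : HEq x.1 y.1) : Bd D U i t y := by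
  subst hs hw
  rwa [← Subtype.ext (eq_of_heq h)]

lemma Perm.cast {s : ℕ} {w w' : ℤ} {x : Cob.wt Laz s w} {y : Cob.wt Laz s w'}
    (H : Perm D U i x) (hw : w = w') (h : x.1 = y.1) : Perm D U i y := by
  subst hw
  rwa [← Subtype.ext h]

variable {δ : V ⟶ (𝟙_ 𝒯)⟦(1 : ℤ)⟧} (hC : Triangle.mk ((3 : ℤ) • 𝟙 (𝟙_ 𝒯)) i δ ∈ distTriang 𝒯)

include hC

lemma bd_of_isB {t s T : ℕ} {z : Co s T} (hz : IsB z) (ht : t + 1 ≤ s ∨ t = 0) :
    Bd D U i t z := by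
  cases s with
  | zero => exact (gen_three hC).bd_of_mem (by omega) hz
  | succ s =>
    obtain ⟨e, he⟩ := hz
    exact (bd_d e (by omega)).congr (gen_three hC)
      (by rw [Cob.coe_dwt, ← neg_sub]; exact neg_mem he)

lemma perm_of_isB {s T : ℕ} {z : Co s T} (hz : IsB z) : Perm D U i z :=
  (bd_of_isB hC hz (.inr rfl)).perm

lemma cl_mem_PP {s T : ℕ} {z : Z s T} : cl s T z ∈ PP D U i s T ↔ Perm D U i z.1 := by
  refine ⟨?_, fun h => ⟨z, h, rfl⟩⟩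
  rintro ⟨z', h, e⟩
  have := Perm.add h (perm_of_isB hC (cl_eq.1 e.symm))
  rwa [AddSubgroup.coe_sub, add_sub_cancel] at this

lemma cl_mem_BB {t s T : ℕ} (ht : t + 1 ≤ s) {z : Z s T} :
    cl s T z ∈ BB D U i t s T ↔ Bd D U i t z.1 := by
  refine ⟨?_, fun h => ⟨z, h, rfl⟩⟩
  rintro ⟨z', h, e⟩
  have := h.add (bd_of_isB hC (cl_eq.1 e.symm) (.inl ht))
  rwa [AddSubgroup.coe_sub, add_sub_cancel] at this

/-- One step up. -/
lemma bd_step {t s T : ℕ} {y : Co s T} (H : Bd D U i t y) (ht : t + 2 ≤ s)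
    (hv : ∀ k W, s = t + 4 * k + 1 → T = W + k → ∀ u : Z t W, Dif D U i u.1 y →
      Bd D U i (t + 1) y) : Bd D U i (t + 1) y := by
  have G : Gen D U i (IC 3 1) := gen_three hC
  refine G.bd_succ H ht fun w₀ x hx hd => ?_
  have hdeg := hd.deg
  by_cases h : (((3 : ℕ) : ℤ) - 1) ∣ w₀ ∧ (((3 : ℕ) : ℤ) - 1) * t ≤ w₀
  · obtain ⟨⟨l, hl⟩, h2⟩ := h
    push_cast at hl h2
    obtain ⟨W, rfl⟩ : ∃ W : ℕ, l = W := ⟨l.toNat, by omega⟩
    subst hl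
    exact hv (T - W) W (by omega) (by omega) ⟨x, hx⟩ hd
  · have h1 := algVan_line (p := 3) (h := 1) le_rfl h
    cases t with
    | zero =>
      exact (hd.congr G (x' := 0) (y' := y) (by simpa using h1 x.1 x.2 hx) (by simp)).bd_of_zero
    | succ r =>
      obtain ⟨e, he, hxe⟩ := h1 x.1 x.2 hx
      exact (bd_d (t := 0) (⟨e, he⟩ : Cob.wt Laz r w₀) (Nat.zero_le _)).perm.bd
        (hd.congr G (y' := y) hxe (by simp))

lemma bd_up {t s T : ℕ} {y : Co s T} (H : Bd D U i t y) {t' : ℕ} (h : t ≤ t') (ht : t' + 1 ≤ s)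
    (hv : ∀ r k, t ≤ r → r < t' → s ≠ r + 4 * k + 1) : Bd D U i t' y := by
  induction t', h using Nat.le_induction with
  | base => exact H
  | succ r hr ih =>
    exact bd_step hC (ih (by omega) fun r' k h1 h2 => hv r' k h1 (by omega)) (by omega)
      fun k W hk => absurd hk (hv r k hr (by omega))

lemma isB_of_bd {t s T : ℕ} {y : Z s T} (H : Bd D U i t y.1) (h : s ≤ t + 4) : IsB y.1 := by
  cases s with
  | zero => exact (gen_three hC).bd_zero_iff.1 (H.mono (Nat.zero_le _))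
  | succ s =>
    refine ((gen_three (D := D) (U := U) hC).bd_iff y.2).1 ?_
    by_cases h1 : s ≤ t
    · exact H.mono h1
    · exact bd_up hC H (by omega) le_rfl fun r k _ _ => by omega

/-- Four steps up. -/
lemma dif_next {s s' s'' T T' T'' : ℕ} {x : Co s T} {y : Co s' T'} (H : Dif D U i x y)
    (H' : Bd D U i (s + 1) y) (hs : s'' = s' + 4) (hT : T'' = T' + 1) :
    ∃ y' : Z s'' T'', Dif D U i x y'.1 := by
  have G : Gen D U i (IC 3 1) := gen_three hC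
  have h0 := H.lt
  obtain ⟨y₁, h1, h2⟩ := G.step H H' (s'' := s' + 1 + 1) rfl rfl
  obtain ⟨y₂, h3, h4⟩ := G.step h2 (bd_of_odd hC rfl (by omega) y₁ h1) (s'' := s'')
    (w'' := 2 * (T'' : ℤ)) (by omega) (by omega)
  exact ⟨⟨y₂, h3⟩, h4⟩

lemma exists_dk (k : ℕ) : ∃ φ : A →ₗ[F] A,
    (∀ s T x, x ∈ G s T → φ x ∈ G (s + (4 * k + 1)) (T + k)) ∧
      ∀ s T (z : Z s T) (y : Z (s + (4 * k + 1)) (T + k)), Dif D U i z.1 y.1 →
        ∃ y' : Z (s + (4 * k + 1)) (T + k), Dif D U i z.1 y'.1 ∧ φ (cl s T z) = cl _ _ y' :=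
  exists_op (4 * k + 1) k (Wd D U i k) fun s T z hz =>
    ⟨0, (perm_of_isB hC hz).dif_zero (by omega) (by push_cast; ring), isB_of_mem (zero_mem _)⟩

variable (D U) in
/-- The differential `d₅`. -/
noncomputable def d5 : A →ₗ[F] A := (exists_dk (D := D) (U := U) hC 1).choose

variable (D U) in
/-- The differential `d₉`. -/
noncomputable def d9 : A →ₗ[F] A := (exists_dk (D := D) (U := U) hC 2).choose

lemma d5_mem {s T : ℕ} {x : A} (hx : x ∈ G s T) : d5 D U hC x ∈ G (s + 5) (T + 1) :=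
  (exists_dk hC 1).choose_spec.1 s T x hx

lemma d9_mem {s T : ℕ} {x : A} (hx : x ∈ G s T) : d9 D U hC x ∈ G (s + 9) (T + 2) :=
  (exists_dk hC 2).choose_spec.1 s T x hx

lemma exists_dif5 {s T : ℕ} (z : Z s T) : ∃ y : Z (s + 5) (T + 1), Dif D U i z.1 y.1 :=
  dif_next hC (T' := T) (dif_d z.1) ((gen_three hC).bd_of_mem le_rfl z.2) rfl rfl

lemma d5_cl {s T s' T' : ℕ} {z : Z s T} {y : Z s' T'} (H : Dif D U i z.1 y.1) (hs : s' = s + 5) :
    d5 D U hC (cl s T z) = cl s' T' y := by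
  obtain rfl : T' = T + 1 := by have := H.deg; omega
  subst hs
  obtain ⟨y', h1, h2⟩ := (exists_dk hC 1).choose_spec.2 s T z y H
  exact h2.trans (cl_eq.2 (isB_of_bd hC (y := y' - y) (h1.bd_sub H) le_rfl))

lemma exists_dif9 {s T : ℕ} {z : Z s T} (hz : d5 D U hC (cl s T z) = 0) :
    ∃ y : Z (s + 9) (T + 2), Dif D U i z.1 y.1 ∧ d9 D U hC (cl s T z) = cl _ _ y := by
  obtain ⟨y, hy⟩ := exists_dif5 (D := D) (U := U) hC z
  rw [d5_cl hC hy rfl, cl_eq_zero] at hz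
  obtain ⟨y', hy'⟩ := dif_next hC hy (bd_of_isB hC hz (by omega)) (s'' := s + 9) (T'' := T + 2)
    rfl rfl
  exact (exists_dk hC 2).choose_spec.2 s T z y' hy'

lemma d5_of_dif {s T s' : ℕ} {w' : ℤ} {z : Z s T} {y : Cob.wt Laz s' w'} (H : Dif D U i z.1 y)
    (hs : s + 5 < s') : d5 D U hC (cl s T z) = 0 := by
  rw [d5_cl hC (y := (0 : Z (s + 5) (T + 1)))
    (H.zero_of_lt (by omega) hs (by push_cast; ring)) rfl, map_zero]

lemma hit {s T k : ℕ} {y : Z (s + (4 * k + 1)) (T + k)} (H : Bd D U i s y.1) (hk : 1 ≤ k) :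
    ∃ u : Z s T, Dif D U i u.1 y.1 := by
  obtain ⟨u, h1, h2⟩ := (gen_three hC).hit H (by omega) (w₀ := 2 * (T : ℤ)) (by push_cast; ring)
  exact ⟨⟨u, h1 (by omega)⟩, h2⟩

lemma elim5 {t s T : ℕ} {y : Z (s + 5) (T + 1)} (H : Bd D U i t y.1) (h : s ≤ t + 3) :
    ∃ a ∈ G s T, cl _ _ y = d5 D U hC a := by
  by_cases h1 : s + 1 ≤ t
  · exact ⟨0, zero_mem _, by rw [map_zero, cl_eq_zero]; exact isB_of_bd hC H (by omega)⟩
  · obtain ⟨u, hu⟩ := hit hC (k := 1) (y := y)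
      (bd_up hC H (by omega) (by omega) fun r k _ _ => by omega) le_rfl
    exact ⟨_, cl_mem u, (d5_cl hC hu rfl).symm⟩

lemma d9_cl {s T s' T' : ℕ} {z : Z s T} {y : Z s' T'} (H : Dif D U i z.1 y.1) (hs : s' = s + 9) :
    ∃ c ∈ G (s + 4) (T + 1), d9 D U hC (cl s T z) = cl s' T' y + d5 D U hC c := by
  obtain rfl : T' = T + 2 := by have := H.deg; omega
  subst hs
  obtain ⟨y', h1, h2⟩ := exists_dif9 hC (d5_of_dif hC H (by omega))
  obtain ⟨c, hc, e⟩ := elim5 hC (s := s + 4) (T := T + 1) (y := y' - y) (h1.bd_sub H) le_rfl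
  refine ⟨c, hc, ?_⟩
  rw [h2, ← e]
  exact ((add_sub_cancel _ _).symm.trans (congrArg _ (map_sub _ _ _).symm))

lemma elim9 {t s T : ℕ} {y : Z (s + 9) (T + 2)} (H : Bd D U i t y.1) (h : s ≤ t + 3) :
    ∃ a ∈ G (s + 4) (T + 1), ∃ c ∈ G s T, d5 D U hC c = 0 ∧
      cl _ _ y = d5 D U hC a + d9 D U hC c := by
  by_cases h1 : s + 1 ≤ t
  · obtain ⟨a, ha, e⟩ := elim5 hC (s := s + 4) (T := T + 1) (y := y) H (by omega)
    exact ⟨a, ha, 0, zero_mem _, map_zero _, by rw [map_zero, add_zero]; exact e⟩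
  · obtain ⟨u, hu⟩ := hit hC (k := 2) (y := y)
      (bd_up hC H (by omega) (by omega) fun r k _ _ => by omega) (by norm_num)
    obtain ⟨c, hc, e⟩ := d9_cl hC hu rfl
    refine ⟨-c, neg_mem hc, _, cl_mem u, d5_of_dif hC hu (by omega), ?_⟩
    rw [e, map_neg, add_comm (cl _ _ _), neg_add_cancel_left]

lemma pp_d5 {s T : ℕ} {x : A} (hx : x ∈ PP D U i s T) : d5 D U hC x = 0 := by
  obtain ⟨z, h, rfl⟩ := mem_PP.1 hx
  exact d5_of_dif hC (h.dif_zero (s' := s + 9) (w' := 2 * (T : ℤ) + 4) (by omega)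
    (by push_cast; ring)) (by omega)

lemma pp_d9 {s T : ℕ} {x : A} (hx : x ∈ PP D U i s T) :
    ∃ c ∈ G (s + 4) (T + 1), d9 D U hC x = d5 D U hC c := by
  obtain ⟨z, h, rfl⟩ := mem_PP.1 hx
  obtain ⟨c, hc, e⟩ := d9_cl hC (z := z) (y := (0 : Z (s + 9) (T + 2)))
    (h.dif_zero (by omega) (by push_cast; ring)) rfl
  exact ⟨c, hc, by rw [e, map_zero, zero_add]⟩

omit hC in
lemma bb_pp {t s T : ℕ} {x : A} (hx : x ∈ BB D U i t s T) : x ∈ PP D U i s T := by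
  obtain ⟨z, h, rfl⟩ := hx
  exact ⟨z, h.perm, rfl⟩

lemma d5_bb {s T : ℕ} {x : A} (hx : x ∈ G s T) : d5 D U hC x ∈ BB D U i s (s + 5) (T + 1) := by
  obtain ⟨z, rfl⟩ := hx
  obtain ⟨y, hy⟩ := exists_dif5 (D := D) (U := U) hC z
  exact ⟨y, hy.bd, (d5_cl hC hy rfl).symm⟩

lemma d9_bb {s T : ℕ} {x : A} (hx : x ∈ G s T) (h : d5 D U hC x = 0) :
    d9 D U hC x ∈ BB D U i s (s + 9) (T + 2) := by
  obtain ⟨z, rfl⟩ := hx
  obtain ⟨y, hy, e⟩ := exists_dif9 hC h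
  exact ⟨y, hy.bd, e.symm⟩

lemma d5_bk {s T : ℕ} {x : A} (hx : x ∈ G s T) : d5 D U hC (bk x) = -bk (d5 D U hC x) := by
  obtain ⟨z, rfl⟩ := hx
  obtain ⟨y, hy⟩ := exists_dif5 (D := D) (U := U) hC z
  obtain ⟨z₁, h1⟩ := exists_bk z
  obtain ⟨y₁, h2⟩ := exists_bk y
  rw [d5_cl hC hy rfl, bk_cl h1, bk_cl h2, ← map_neg]
  exact d5_cl hC (y := -y₁) (dif_bock hC (gen_three hC) i hy (by omega) h1 h2) rfl

lemma d9_bk {s T : ℕ} {x : A} (hx : x ∈ G s T) (h : d5 D U hC x = 0) :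
    ∃ c ∈ G (s + 5) (T + 1), d9 D U hC (bk x) = -bk (d9 D U hC x) + d5 D U hC c := by
  obtain ⟨z, rfl⟩ := hx
  obtain ⟨y, hy, e⟩ := exists_dif9 hC h
  obtain ⟨z₁, h1⟩ := exists_bk z
  obtain ⟨y₁, h2⟩ := exists_bk y
  rw [e, bk_cl h1, bk_cl h2, ← map_neg]
  exact d9_cl hC (y := -y₁) (dif_bock hC (gen_three hC) i hy (by omega) h1 h2) rfl

lemma pp_bk {s T : ℕ} {x : A} (hx : x ∈ PP D U i s T) : bk x ∈ PP D U i (s + 1) T := by
  obtain ⟨z, h, rfl⟩ := mem_PP.1 hx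
  obtain ⟨z₁, h1⟩ := exists_bk z
  exact ⟨z₁, perm_bock hC (gen_three hC) i h h1, (bk_cl h1).symm⟩

lemma bb_succ {t s T : ℕ} {y : A} (H : y ∈ BB D U i t s T) (ht : t + 2 ≤ s)
    (hv : ∀ k W, s = t + 4 * k + 1 → T = W + k → ∀ u ∈ G t W, u ∈ PP D U i t W) :
    y ∈ BB D U i (t + 1) s T := by
  obtain ⟨y, H, rfl⟩ := H
  exact ⟨y, bd_step hC H ht fun k W h1 h2 u hu =>
    ((cl_mem_PP hC).1 (hv k W h1 h2 _ (cl_mem u))).bd hu, rfl⟩

lemma pp_of [MonoidalClosed 𝒯] [IsTriangulated 𝒯] [HasProducts.{0} 𝒯] [StableCat 𝒯]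
    {s T : ℕ} {x : A} (hx : x ∈ G s T) (h5 : d5 D U hC x = 0)
    (h9 : ∃ c ∈ G (s + 4) (T + 1), d9 D U hC x = d5 D U hC c)
    (H : ∀ k, 3 ≤ k → ∀ y ∈ PP D U i (s + 4 * k + 1) (T + k),
      y ∈ BB D U i (s + 1) (s + 4 * k + 1) (T + k)) : x ∈ PP D U i s T := by
  obtain ⟨z, rfl⟩ := hx
  refine (cl_mem_PP hC).2 ((gen_three hC).perm
    (isST_one (D := D) (p := 3) (by norm_num) hC).bigCell z.2 fun s' w' y hs hy hd => ?_)
  have hdeg := hd.deg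
  rcases Int.even_or_odd' w' with ⟨l, hl | hl⟩
  · obtain ⟨k, rfl⟩ : ∃ k : ℕ, l = ((T + k : ℕ) : ℤ) := ⟨(l - T).toNat, by omega⟩
    subst hl
    obtain rfl : s' = s + 4 * k + 1 := by omega
    refine (cl_mem_BB hC (z := ⟨y, hy⟩) (by omega)).1 ?_
    obtain rfl | rfl | hk : k = 1 ∨ k = 2 ∨ 3 ≤ k := by omega
    · rw [← d5_cl hC (y := ⟨y, hy⟩) hd rfl, h5]
      exact ⟨0, bd_zero (by omega), map_zero _⟩
    · obtain ⟨c, hc, e⟩ := h9
      obtain ⟨c', hc', e'⟩ := d9_cl hC (y := ⟨y, hy⟩) hd rfl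
      rw [e, ← sub_eq_iff_eq_add, ← map_sub] at e'
      obtain ⟨y', h1, h2⟩ := d5_bb (D := D) (U := U) hC (sub_mem hc hc')
      exact ⟨y', h1.mono (by omega), h2.trans e'⟩
    · exact H k hk _ ⟨⟨y, hy⟩, hd.bd.perm, rfl⟩
  · obtain ⟨s', rfl⟩ : ∃ r, s' = r + 1 := ⟨s' - 1, by omega⟩
    exact bd_of_odd hC hl (by omega) y hy

section Mul

variable [IsTriangulated 𝒯] {m : V ⊗ V ⟶ V} (hm : (i ▷ V) ≫ m = (λ_ V).hom)

include hm

omit hC in
lemma leib {a W s T r k : ℕ} (hr : 3 ≤ r) {x : Z a W} {x' : Z (a + r) (W + k)} {y : Z s T}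
    {y' : Z (s + r) (T + k)} (H : Dif D U i x.1 x'.1) (H' : Dif D U i y.1 y'.1) :
    ∃ z : Z (a + s + r) (W + T + k), Dif D U i (cupZ rfl rfl x y).1 z.1 ∧ cl _ _ z =
      mul (cl _ _ x') (cl _ _ y) + (-1 : F) ^ a • mul (cl _ _ x) (cl _ _ y') := by
  have h2 : a + r + s = a + s + r := by omega
  have h3 : a + (s + r) = a + s + r := by omega
  have k2 : W + k + T = W + T + k := by omega
  have k3 : W + (T + k) = W + T + k := by omega
  refine ⟨cupZ h2 k2 x' y + (-1 : ℤ) ^ a • cupZ h3 k3 x y',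
    Dif.leibniz hm (by omega) (by positivity) rfl h2 h3 (by push_cast; ring) (by push_cast; ring)
      (by push_cast; ring) H H', ?_⟩
  rw [map_add, map_zsmul, mul_cl h2 k2, mul_cl h3 k3, sign_smul]

lemma d5_mul {a W s T : ℕ} {x y : A} (hx : x ∈ G a W) (hy : y ∈ G s T) :
    d5 D U hC (mul x y) = mul (d5 D U hC x) y + (-1 : F) ^ a • mul x (d5 D U hC y) := by
  obtain ⟨x, rfl⟩ := hx
  obtain ⟨y, rfl⟩ := hy
  obtain ⟨x', hx⟩ := exists_dif5 (D := D) (U := U) hC x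
  obtain ⟨y', hy⟩ := exists_dif5 (D := D) (U := U) hC y
  obtain ⟨z, h1, h2⟩ := leib hm (by norm_num) hx hy
  rw [d5_cl hC hx rfl, d5_cl hC hy rfl, mul_cl rfl rfl, d5_cl hC h1 rfl, h2]

lemma d9_mul {a W s T : ℕ} {x y : A} (hx : x ∈ G a W) (hy : y ∈ G s T) (h : d5 D U hC x = 0)
    (h' : d5 D U hC y = 0) : ∃ c ∈ G (a + s + 4) (W + T + 1), d9 D U hC (mul x y) =
      mul (d9 D U hC x) y + (-1 : F) ^ a • mul x (d9 D U hC y) + d5 D U hC c := by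
  obtain ⟨x, rfl⟩ := hx
  obtain ⟨y, rfl⟩ := hy
  obtain ⟨x', hx, e⟩ := exists_dif9 hC h
  obtain ⟨y', hy, e'⟩ := exists_dif9 hC h'
  obtain ⟨z, h1, h2⟩ := leib hm (by norm_num) hx hy
  rw [e, e', mul_cl rfl rfl, ← h2]
  exact d9_cl hC h1 rfl

omit hC in
lemma pp_mul {a W s T : ℕ} {x y : A} (hx : x ∈ PP D U i a W) (hy : y ∈ PP D U i s T) :
    mul x y ∈ PP D U i (a + s) (W + T) := by
  obtain ⟨x, h, rfl⟩ := mem_PP.1 hx
  obtain ⟨y, h', rfl⟩ := mem_PP.1 hy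
  exact ⟨cupZ rfl rfl x y, Perm.mul hm rfl (by push_cast; ring) h h', (mul_cl rfl rfl x y).symm⟩

end Mul

end Vale.Agent.P236E
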