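import Vale.Agent.P236E.Top
import Vale.Agent.P236H.Main

/-!
# P236, block ENG: the final assembly from tables and an abstract computation
-/

namespace Vale.Agent.P236E

open Vale.Agent.P236K Vale.Agent.P236H

/-- An abstract computation over the tables `τ`. -/
def Eng (τ : Tab) (P : SS → Prop) : Prop := ∀ S : SS, Crd τ S → S.High → P S

variable {τ : Tab} (R : Real τ)

include R

theorem always_out {j : ℕ} (h : Eng τ fun S => S.Out j) :
    Always fun _ D U _ i => EngOut D U i j := fun _ Φ _ _ _ _ _ _ _ hC => by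
  obtain ⟨S, h1, h2, h3, -⟩ := exists_SS hC Φ
  obtain ⟨C⟩ := h2 τ R
  exact h3 j (h S C h1)

theorem always_out3 {j : ℕ} (h : Eng τ fun S => S.Out3 j) :
    Always fun _ D U _ i => EngOut3 D U i j := fun _ Φ _ _ _ _ _ _ _ hC => by
  obtain ⟨S, h1, h2, -, h3, -⟩ := exists_SS hC Φ
  obtain ⟨C⟩ := h2 τ R
  exact h3 j (h S C h1)

theorem always_out1 (h : Eng τ fun S => S.Out1) :
    Always fun _ D U _ i => EngOut1 D U i := fun _ Φ _ _ _ _ _ _ _ hC => by
  obtain ⟨S, h1, h2, -, -, h3⟩ := exists_SS hC Φ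
  obtain ⟨C⟩ := h2 τ R
  exact h3 (h S C h1)

/-- The case `j ≥ 3`. -/
theorem fin3_of_eng (h : Eng τ fun S => S.Out 3) : FIN3 9 :=
  fin3_of (always_core9 (always_out R h))

/-- All cases. -/
theorem fin_of_eng (h : Eng τ fun S => S.Out1 ∧ S.Out3 2 ∧ S.Out 3) : FIN 9 :=
  fin_of (always_out1 R fun S C H => (h S C H).1)
    (always_core3 (always_out3 R fun S C H => (h S C H).2.1))
    (always_core9 (always_out R fun S C H => (h S C H).2.2))

/-- All cases, with order three. -/
theorem fin_of_eng3 (h : Eng τ fun S => S.Out1 ∧ S.Out3 2 ∧ S.Out3 3) : FIN 3 :=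
  fin_of (always_out1 R fun S C H => (h S C H).1)
    (always_core3 (always_out3 R fun S C H => (h S C H).2.1))
    (always_core3 (always_out3 R fun S C H => (h S C H).2.2))

end Vale.Agent.P236E
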