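import Vale.Agent.P236E.Orc

/-!
# P236, block ENG: linear forms over `F₃` and solved equations
-/

namespace Vale.Agent.P236E

/-- Linear forms; `cons v c t` is `± x_v + t`, with the sign `-` for `c = true`. -/
inductive Fm where
  | nil : Fm
  | cons (v : ℕ) (c : Bool) (t : Fm) : Fm
  deriving DecidableEq

/-- The value of a form. -/
noncomputable def ev (val : ℕ → F) (f : Fm) : F :=
  Fm.rec 0 (fun v c _ ih => cond c (-val v) (val v) + ih) f

@[simp] lemma ev_nil (val : ℕ → F) : ev val .nil = 0 := rfl
@[simp] lemma ev_false (val : ℕ → F) (v : ℕ) (t : Fm) :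
    ev val (.cons v false t) = val v + ev val t := rfl
@[simp] lemma ev_true (val : ℕ → F) (v : ℕ) (t : Fm) :
    ev val (.cons v true t) = -val v + ev val t := rfl

noncomputable def fneg (f : Fm) : Fm :=
  Fm.rec .nil (fun v c _ ih => Bool.rec (.cons v true ih) (.cons v false ih) c) f

noncomputable def fadd (f : Fm) : Fm → Fm :=
  Fm.rec (fun g => g) (fun v c t ih g =>
    Fm.rec (.cons v c t) (fun v' c' t' ih' =>
      Bool.rec (.cons v c (ih (.cons v' c' t')))
        (Bool.rec (.cons v' c' ih')
          (Bool.rec (Bool.rec (.cons v true (ih t')) (ih t') c')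
            (Bool.rec (ih t') (.cons v false (ih t')) c') c)
          (Nat.ble v' v))
        (Nat.ble v v')) g) f

lemma ev_fneg (val : ℕ → F) (f : Fm) : ev val (fneg f) = -ev val f := by
  induction f with
  | nil => exact neg_zero.symm
  | cons v c t ih =>
    cases c
    · change ev val (.cons v true (fneg t)) = _
      rw [ev_true, ev_false, ih, neg_add]
    · change ev val (.cons v false (fneg t)) = _
      rw [ev_true, ev_false, ih, neg_add, neg_neg]

lemma neg_eq_add_self (x : F) : -x = x + x := by
  revert x; decide

lemma ev_fadd (val : ℕ → F) (f g : Fm) : ev val (fadd f g) = ev val f + ev val g := by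
  induction f generalizing g with
  | nil => exact (zero_add _).symm
  | cons v c t ih =>
    induction g with
    | nil => exact (add_zero _).symm
    | cons v' c' t' ih' =>
      have e : fadd (.cons v c t) (.cons v' c' t') =
          Bool.rec (.cons v c (fadd t (.cons v' c' t')))
            (Bool.rec (.cons v' c' (fadd (.cons v c t) t'))
              (Bool.rec (Bool.rec (.cons v true (fadd t t')) (fadd t t') c')
                (Bool.rec (fadd t t') (.cons v false (fadd t t')) c') c)
              (Nat.ble v' v))
            (Nat.ble v v') := rfl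
      rw [e]
      cases h : Nat.ble v v'
      · cases c <;> simp only [ev_true, ev_false, ih, add_assoc]
      · cases h' : Nat.ble v' v
        · cases c' <;> simp only [ev_true, ev_false, ih'] <;> ring
        · obtain rfl : v = v' := le_antisymm (Nat.le_of_ble_eq_true h) (Nat.le_of_ble_eq_true h')
          cases c <;> cases c' <;> simp only [ev_true, ev_false, ih]
          · rw [neg_eq_add_self]; ring
          · ring
          · ring
          · have e3 := neg_eq_add_self (-val v)
            rw [neg_neg] at e3
            linear_combination e3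

/-- Binary trees of solved equations. -/
inductive Tr where
  | leaf : Tr
  | node (o : Option Fm) (l r : Tr) : Tr

noncomputable def Tr.get (t : Tr) : ℕ → Option Fm :=
  Tr.rec (fun _ => none) (fun o _ _ il ir k =>
    Nat.rec o (fun n _ => Nat.rec (il (Nat.div n 2)) (fun _ _ => ir (Nat.div n 2)) (Nat.mod n 2))
      k) t

/-- One step of the insertion. -/
noncomputable def insB {α : Type} (ih : Tr → ℕ → (Tr → α) → α) (g : Fm) (o : Option Fm)
    (l r : Tr) (k : ℕ) (K : Tr → α) : α :=
  Nat.rec (K (.node (some g) l r)) (fun n _ =>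
    Nat.rec (ih l (Nat.div n 2) fun l' => K (.node o l' r))
      (fun _ _ => ih r (Nat.div n 2) fun r' => K (.node o l r')) (Nat.mod n 2)) k

/-- Insertion, in continuation passing style. -/
noncomputable def ins {α : Type} (g : Fm) (fuel : ℕ) : Tr → ℕ → (Tr → α) → α :=
  Nat.rec (fun t _ K => K t) (fun _ ih t k K =>
    Tr.rec (insB ih g none .leaf .leaf k K) (fun o l r _ _ => insB ih g o l r k K) t) fuel

lemma get_node_zero (o : Option Fm) (l r : Tr) : (Tr.node o l r).get 0 = o := rfl

lemma get_node_succ (o : Option Fm) (l r : Tr) (n : ℕ) :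
    (Tr.node o l r).get (n + 1) = if n % 2 = 0 then l.get (n / 2) else r.get (n / 2) := by
  change Nat.rec (motive := fun _ => Option Fm) (l.get (n / 2)) (fun _ _ => r.get (n / 2))
    (n % 2) = _
  cases h : n % 2 with
  | zero => rfl
  | succ m => rfl

lemma ins_spec {α : Type} (g : Fm) (fuel : ℕ) (t : Tr) (k : ℕ) :
    ∃ t' : Tr, (∀ K : Tr → α, ins g fuel t k K = K t') ∧
      ∀ k' g', t'.get k' = some g' → (k' = k ∧ g' = g) ∨ t.get k' = some g' := by
  induction fuel generalizing t k with
  | zero => exact ⟨t, fun _ => rfl, fun _ _ h => Or.inr h⟩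
  | succ fuel ih =>
    have key : ∀ (o : Option Fm) (l r : Tr), ∃ t' : Tr,
        (∀ K : Tr → α, insB (ins g fuel) g o l r k K = K t') ∧
        ∀ k' g', t'.get k' = some g' →
          (k' = k ∧ g' = g) ∨ (Tr.node o l r).get k' = some g' := by
      intro o l r
      cases k with
      | zero =>
        refine ⟨.node (some g) l r, fun _ => rfl, ?_⟩
        rintro (_ | k') g' h
        · exact Or.inl ⟨rfl, (Option.some.inj h).symm⟩
        · exact Or.inr h
      | succ n =>
        have e : ∀ K : Tr → α, insB (ins g fuel) g o l r (n + 1) K =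
            Nat.rec (motive := fun _ => α) (ins g fuel l (n / 2) fun l' => K (.node o l' r))
              (fun _ _ => ins g fuel r (n / 2) fun r' => K (.node o l r')) (n % 2) :=
          fun _ => rfl
        cases h : n % 2 with
        | zero =>
          obtain ⟨l', h1, h2⟩ := ih l (n / 2)
          refine ⟨.node o l' r, fun K => by rw [e, h]; exact h1 _, ?_⟩
          rintro (_ | k') g' h3
          · exact Or.inr h3
          · rw [get_node_succ] at h3 ⊢
            split_ifs at h3 ⊢ with h4
            · exact (h2 _ _ h3).imp_left fun h5 => ⟨by omega, h5.2⟩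
            · exact Or.inr h3
        | succ m =>
          obtain ⟨r', h1, h2⟩ := ih r (n / 2)
          refine ⟨.node o l r', fun K => by rw [e, h]; exact h1 _, ?_⟩
          rintro (_ | k') g' h3
          · exact Or.inr h3
          · rw [get_node_succ] at h3 ⊢
            split_ifs at h3 ⊢ with h4
            · exact Or.inr h3
            · exact (h2 _ _ h3).imp_left fun h5 => ⟨by omega, h5.2⟩
    cases t with
    | leaf =>
      obtain ⟨t', h1, h2⟩ := key none .leaf .leaf
      refine ⟨t', h1, fun k' g' h => (h2 k' g' h).imp_right fun h3 => ?_⟩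
      cases k' with
      | zero => exact h3
      | succ k' =>
        rw [get_node_succ] at h3
        split_ifs at h3 <;> exact h3
    | node o l r => exact key o l r

/-- The solved equations hold. -/
def TrH (val : ℕ → F) (t : Tr) : Prop := ∀ k g, t.get k = some g → val k = ev val g

lemma trH_leaf (val : ℕ → F) : TrH val .leaf := fun _ _ h => by cases h

/-- Substitution of the solved variables. -/
noncomputable def redN (t : Tr) (fuel : ℕ) : Fm → Fm :=
  Nat.rec (fun f => f) (fun _ ih f =>
    Fm.rec .nil (fun v c r _ =>
      Option.rec (.cons v c (ih r))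
        (fun g => Bool.rec (ih (fadd g r)) (ih (fadd (fneg g) r)) c) (t.get v)) f) fuel

noncomputable def red (t : Tr) (f : Fm) : Fm := redN t 1000000 f

lemma ev_redN {val : ℕ → F} {t : Tr} (h : TrH val t) (fuel : ℕ) (f : Fm) :
    ev val (redN t fuel f) = ev val f := by
  induction fuel generalizing f with
  | zero => rfl
  | succ n ih =>
    cases f with
    | nil => rfl
    | cons v c r =>
      change ev val (Option.rec (.cons v c (redN t n r))
        (fun g => Bool.rec (redN t n (fadd g r)) (redN t n (fadd (fneg g) r)) c) (t.get v)) = _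
      cases hg : t.get v with
      | none => cases c <;> simp only [ev_true, ev_false, ih]
      | some g =>
        cases c <;> simp only [ev_true, ev_false, ih, ev_fadd, ev_fneg, h v g hg]

lemma ev_red {val : ℕ → F} {t : Tr} (h : TrH val t) (f : Fm) : ev val (red t f) = ev val f :=
  ev_redN h _ f

/-- The form reduces to zero. -/
noncomputable def isz (t : Tr) (f : Fm) : Bool := Fm.rec true (fun _ _ _ _ => false) (red t f)

lemma isz_sound {val : ℕ → F} {t : Tr} (h : TrH val t) {f : Fm} (hz : isz t f = true) :
    ev val f = 0 := by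
  rw [← ev_red h]
  rw [isz] at hz
  cases hr : red t f with
  | nil => rfl
  | cons v c r => rw [hr] at hz; cases hz

/-- The value of a constant form; the variable `0` is the constant `1`. -/
noncomputable def dig0 (f : Fm) : ℕ :=
  Fm.rec 0 (fun v c r _ =>
    Nat.rec (Fm.rec (Bool.rec 1 2 c) (fun _ _ _ _ => 3) r) (fun _ _ => 3) v) f

noncomputable def dig (t : Tr) (f : Fm) : ℕ := dig0 (red t f)

lemma dg_dig {val : ℕ → F} (h0 : val 0 = 1) {t : Tr} (h : TrH val t) (f : Fm) :
    Dg (dig t f) (ev val f) := by
  rw [← ev_red h, dig]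
  rcases red t f with _ | ⟨_ | v, c, _ | _⟩
  · exact dg_zero.2 rfl
  · cases c
    · exact dg_one.2 (by rw [ev_false, h0, ev_nil, add_zero])
    · exact dg_two.2 (by rw [ev_true, h0, ev_nil, add_zero]; decide)
  all_goals exact dg_three _

/-- Evaluate a form before using it. -/
noncomputable def force {α : Type} (f : Fm) : (Fm → α) → α :=
  Fm.rec (fun K => K .nil) (fun v c _ ih K => ih fun r => K (.cons v c r)) f

lemma force_eq {α : Type} (f : Fm) (K : Fm → α) : force f K = K f := by
  induction f generalizing K with
  | nil => rfl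
  | cons v c r ih => exact ih _

/-- The form with the code `l`: the entry `2 v` is `x_v`, the entry `2 v + 1` is `- x_v`. -/
noncomputable def dec (l : List ℕ) : Fm :=
  List.rec .nil (fun a _ ih => fn (Nat.div a 2) fun v =>
    Nat.rec (.cons v false ih) (fun _ _ => .cons v true ih) (Nat.mod a 2)) l

/-- A form which may be unknown has the value `a`. -/
def Eo (val : ℕ → F) (o : Option Fm) (a : F) : Prop := ∀ f, o = some f → ev val f = a

lemma eo_none (val : ℕ → F) (a : F) : Eo val none a := fun _ h => by cases h

lemma eo_some {val : ℕ → F} {f : Fm} {a : F} : Eo val (some f) a ↔ ev val f = a :=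
  ⟨fun h => h f rfl, fun h _ e => Option.some.inj e ▸ h⟩

noncomputable def oadd (a b : Option Fm) : Option Fm :=
  Option.rec none (fun f => Option.rec none (fun g => some (fadd f g)) b) a

lemma Eo.add {val : ℕ → F} {a b : Option Fm} {x y : F} (h : Eo val a x) (h' : Eo val b y) :
    Eo val (oadd a b) (x + y) := by
  cases a with
  | none => exact eo_none _ _
  | some f =>
    cases b with
    | none => exact eo_none _ _
    | some g => exact eo_some.2 (by rw [ev_fadd, eo_some.1 h, eo_some.1 h'])

/-- `d * φ + o`. -/
noncomputable def term (t : Tr) (d : ℕ) (φ : Fm) (o : Option Fm) : Option Fm :=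
  fd d o (Option.rec none (fun g => some (fadd φ g)) o)
    (Option.rec none (fun g => some (fadd (fneg φ) g)) o) (Bool.rec none o (isz t φ))

lemma eo_term {val : ℕ → F} {t : Tr} (h : TrH val t) {d : ℕ} {a y : F} (hd : Dg d a) (φ : Fm)
    {o : Option Fm} (ho : Eo val o y) : Eo val (term t d φ o) (a * ev val φ + y) := by
  rcases digit_cases d with rfl | rfl | rfl | ⟨n, rfl⟩ <;>
    simp only [term, fd_zero, fd_one, fd_two, fd_big, dg_zero, dg_one, dg_two] at hd ⊢
  · rwa [hd, zero_mul, zero_add]
  · rw [hd, one_mul]
    exact (eo_some.2 rfl).add ho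
  · rw [hd, two_mul_F]
    exact (eo_some.2 (ev_fneg val φ)).add ho
  · cases hz : isz t φ
    · exact eo_none _ _
    · rwa [isz_sound h hz, mul_zero, zero_add]

/-- `∑ xs_i * φ (i₀ + i)`. -/
noncomputable def dot (t : Tr) (φ : ℕ → Fm) (xs : List ℕ) : ℕ → Option Fm :=
  List.rec (fun _ => some .nil) (fun d _ ih i => term t d (φ i) (ih (Nat.succ i))) xs

lemma eo_dot {val : ℕ → F} {t : Tr} (h : TrH val t) (φ : ℕ → Fm) {a : ℕ → F} (xs : List ℕ)
    (i₀ : ℕ) (hx : Ap xs fun i => a (i₀ + i)) :
    Eo val (dot t φ xs i₀) (∑ i ∈ Finset.range xs.length, a (i₀ + i) * ev val (φ (i₀ + i))) := by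
  induction xs generalizing i₀ with
  | nil => exact eo_some.2 (by simp)
  | cons c xs ih =>
    rw [ap_cons] at hx
    rw [List.length_cons, Finset.sum_range_succ', add_comm (∑ _ ∈ _, _)]
    refine eo_term (o := dot t φ xs (i₀ + 1)) h hx.1 _ ?_
    have := ih (i₀ + 1) (by simpa only [add_assoc, add_comm 1] using hx.2)
    simpa only [add_assoc, add_comm 1] using this

/-- The product of two forms, one of which is constant, plus `o`. -/
noncomputable def prodF (t : Tr) (φ ψ : Fm) (o : Option Fm) : Option Fm :=
  fd (dig t φ) o (term t 1 ψ o) (term t 2 ψ o)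
    (fd (dig t ψ) o (term t 1 φ o) (term t 2 φ o) none)

lemma eo_prodF {val : ℕ → F} (h0 : val 0 = 1) {t : Tr} (h : TrH val t) (φ ψ : Fm) {y : F}
    {o : Option Fm} (ho : Eo val o y) : Eo val (prodF t φ ψ o) (ev val φ * ev val ψ + y) := by
  have h1 := dg_dig h0 h φ
  have h2 := dg_dig h0 h ψ
  rw [prodF]
  rcases digit_cases (dig t φ) with e | e | e | ⟨n, e⟩ <;> rw [e] at h1 ⊢
  · exact eo_term h h1 ψ ho
  · exact eo_term h h1 ψ ho
  · exact eo_term h h1 ψ ho
  · rw [fd_big, mul_comm]
    rcases digit_cases (dig t ψ) with e | e | e | ⟨n, e⟩ <;> rw [e] at h2 ⊢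
    · exact eo_term h h2 φ ho
    · exact eo_term h h2 φ ho
    · exact eo_term h h2 φ ho
    · exact eo_none _ _

/-- The form is known and reduces to zero. -/
noncomputable def oisz (t : Tr) (o : Option Fm) : Bool := Option.rec false (isz t) o

lemma oisz_sound {val : ℕ → F} {t : Tr} (h : TrH val t) {o : Option Fm} {a : F}
    (ho : Eo val o a) (hz : oisz t o = true) : a = 0 := by
  cases o with
  | none => cases hz
  | some f => rw [← eo_some.1 ho]; exact isz_sound h hz

/-- The value of a form which may be unknown. -/
noncomputable def odig (t : Tr) (o : Option Fm) : ℕ := Option.rec 3 (dig t) o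

lemma dg_odig {val : ℕ → F} (h0 : val 0 = 1) {t : Tr} (h : TrH val t) {o : Option Fm} {a : F}
    (ho : Eo val o a) : Dg (odig t o) a := by
  cases o with
  | none => exact dg_three _
  | some f => rw [← eo_some.1 ho]; exact dg_dig h0 h f

/-- The value of an exact digit. -/
noncomputable def cs (d : ℕ) : F := fd d 0 1 (-1) 0

/-- The functional with the coefficients `l`. -/
noncomputable def lam (l : List ℕ) : (ℕ → F) →ₗ[F] F :=
  List.rec 0 (fun d _ ih => cs d • LinearMap.proj 0 + ih.comp (LinearMap.funLeft F F Nat.succ)) l

lemma lam_nil (y : ℕ → F) : lam [] y = 0 := rfl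

lemma lam_cons (d : ℕ) (l : List ℕ) (y : ℕ → F) :
    lam (d :: l) y = cs d * y 0 + lam l fun i => y (i + 1) := rfl

/-- The value of a functional on a vector of digits. -/
noncomputable def ddot (l : List ℕ) : List ℕ → ℕ :=
  List.rec (fun _ => 0) (fun d _ ih ys => List.rec 0 (fun y ys' _ =>
    fd d (ih ys') (dadd y (ih ys')) (dadd (dneg y) (ih ys')) (ih ys')) ys) l

lemma dg_ddot (l : List ℕ) {ys : List ℕ} {y : ℕ → F} (h : Ap ys y) : Dg (ddot l ys) (lam l y) := by
  induction l generalizing ys y with
  | nil => exact dg_zero.2 rfl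
  | cons d l ih =>
    cases ys with
    | nil => rw [ap_nil.1 h, map_zero]; exact dg_zero.2 rfl
    | cons b ys =>
      rw [ap_cons] at h
      rw [lam_cons]
      change Dg (fd d (ddot l ys) (dadd b (ddot l ys)) (dadd (dneg b) (ddot l ys)) (ddot l ys)) _
      rcases digit_cases d with rfl | rfl | rfl | ⟨n, rfl⟩ <;>
        simp only [cs, fd_zero, fd_one, fd_two, fd_big, zero_mul, zero_add, one_mul, neg_mul]
      · exact ih h.2
      · exact h.1.add (ih h.2)
      · exact h.1.neg.add (ih h.2)
      · exact ih h.2

/-- `∑ l_i x_{b + i} + acc`. -/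
noncomputable def lamv (l : List ℕ) : ℕ → Fm → Fm :=
  List.rec (fun _ acc => acc) (fun d _ ih b acc =>
    fd d (ih (Nat.succ b) acc) (fn b fun b' => ih (Nat.succ b') (.cons b' false acc))
      (fn b fun b' => ih (Nat.succ b') (.cons b' true acc)) (ih (Nat.succ b) acc)) l

lemma ev_lamv (val : ℕ → F) (l : List ℕ) (b : ℕ) (acc : Fm) :
    ev val (lamv l b acc) = lam l (fun i => val (b + i)) + ev val acc := by
  induction l generalizing b acc with
  | nil => exact (zero_add _).symm
  | cons d l ih =>
    rw [lam_cons]
    have e : (fun i => val (b + (i + 1))) = fun i => val (b + 1 + i) := by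
      funext i
      rw [add_assoc, add_comm 1]
    change ev val (fd d (lamv l (b + 1) acc) (lamv l (b + 1) (.cons b false acc))
      (lamv l (b + 1) (.cons b true acc)) (lamv l (b + 1) acc)) = _
    rcases digit_cases d with rfl | rfl | rfl | ⟨n, rfl⟩ <;>
      simp only [cs, fd_zero, fd_one, fd_two, fd_big, ih, e, ev_true, ev_false, add_zero] <;>
      ring

lemma lam_congr (l : List ℕ) {y z : ℕ → F} (h : ∀ i < l.length, y i = z i) :
    lam l y = lam l z := by
  induction l generalizing y z with
  | nil => rfl
  | cons d l ih =>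
    rw [lam_cons, lam_cons, h 0 (by simp)]
    congr 1
    exact ih fun i hi => h (i + 1) (by simpa using hi)

/-- The unit vector. -/
noncomputable def unit (n : ℕ) : List ℕ := Nat.rec [1] (fun _ ih => 0 :: ih) n

lemma length_unit (n : ℕ) : (unit n).length = n + 1 := by
  induction n with
  | zero => rfl
  | succ n ih => exact congrArg Nat.succ ih

lemma lam_unit (n : ℕ) (y : ℕ → F) : lam (unit n) y = y n := by
  induction n generalizing y with
  | zero => exact (add_zero _).trans (one_mul _)
  | succ n ih =>
    change lam (0 :: unit n) y = _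
    rw [lam_cons, ih]
    exact (congrArg (· + _) (zero_mul _)).trans (zero_add _)

lemma ap_unit (n : ℕ) : Ap (unit n) (Pi.single n 1) := by
  induction n with
  | zero => exact ap_cons.2 ⟨dg_one.2 (by simp), ap_nil.2 (funext fun l => by simp)⟩
  | succ n ih =>
    refine ap_cons.2 ⟨dg_zero.2 (by simp), ?_⟩
    have e : (fun l => (Pi.single (n + 1) 1 : ℕ → F) (l + 1)) = Pi.single n 1 := by
      funext l
      simp [Pi.single_apply]
    rw [e]
    exact ih

/-- At most `n` ternary digits of `v`. -/
noncomputable def unp (n : ℕ) : ℕ → List ℕ :=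
  Nat.rec (fun _ => []) (fun _ ih v =>
    Nat.rec [] (fun _ _ => fn (Nat.mod v 3) fun d => fn (Nat.div v 3) fun w => d :: ih w) v) n

lemma length_unp (n v : ℕ) : (unp n v).length ≤ n := by
  induction n generalizing v with
  | zero => exact le_rfl
  | succ n ih =>
    cases v with
    | zero => exact Nat.zero_le _
    | succ v => exact Nat.succ_le_succ (ih _)

/-- All digits are zero. -/
noncomputable def vz (xs : List ℕ) : Bool :=
  List.rec true (fun d _ ih => Nat.rec ih (fun _ _ => false) d) xs

lemma vz_sound {xs : List ℕ} {x : ℕ → F} (h : Ap xs x) (hz : vz xs = true) : x = 0 := by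
  induction xs generalizing x with
  | nil => exact ap_nil.1 h
  | cons d xs ih =>
    rw [ap_cons] at h
    cases d with
    | zero =>
      funext l
      cases l with
      | zero => exact dg_zero.1 h.1
      | succ l => exact congrFun (ih h.2 hz) l
    | succ d => cases hz

/-- Equality of two known vectors. -/
noncomputable def veq (xs ys : List ℕ) : Bool := vz (vadd xs (vneg ys))

lemma veq_sound {xs ys : List ℕ} {x y : ℕ → F} (h : Ap xs x) (h' : Ap ys y)
    (hz : veq xs ys = true) : x = y := by
  have := vz_sound (h.add h'.neg) hz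
  rwa [← sub_eq_add_neg, sub_eq_zero] at this

/-- `p k` for all `k < n`. -/
noncomputable def allN (p : ℕ → Bool) (n : ℕ) : Bool :=
  Nat.rec true (fun k ih => Bool.rec false ih (p k)) n

lemma allN_sound {p : ℕ → Bool} {n : ℕ} (h : allN p n = true) {k : ℕ} (hk : k < n) :
    p k = true := by
  induction n with
  | zero => omega
  | succ n ih =>
    change Bool.rec false (allN p n) (p n) = true at h
    cases hp : p n
    · rw [hp] at h; cases h
    · rw [hp] at h
      rcases Nat.lt_succ_iff_lt_or_eq.1 hk with h1 | rfl
      · exact ih h h1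
      · exact hp

/-- `p a` for all `a` in `l`. -/
noncomputable def allL {α : Type} (p : α → Bool) (l : List α) : Bool :=
  List.rec true (fun a _ ih => Bool.rec false ih (p a)) l

lemma allL_sound {α : Type} {p : α → Bool} {l : List α} (h : allL p l = true) {a : α}
    (ha : a ∈ l) : p a = true := by
  induction l with
  | nil => cases ha
  | cons b l ih =>
    change Bool.rec false (allL p l) (p b) = true at h
    cases hp : p b
    · rw [hp] at h; cases h
    · rw [hp] at h
      rcases List.mem_cons.1 ha with rfl | h1
      · exact hp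
      · exact ih h h1

/-- `p a` for some `a` in `l`. -/
noncomputable def anyL {α : Type} (p : α → Bool) (l : List α) : Bool :=
  List.rec false (fun a _ ih => Bool.rec ih true (p a)) l

lemma anyL_sound {α : Type} {p : α → Bool} {l : List α} (h : anyL p l = true) :
    ∃ a ∈ l, p a = true := by
  induction l with
  | nil => cases h
  | cons b l ih =>
    change Bool.rec (anyL p l) true (p b) = true at h
    cases hp : p b
    · rw [hp] at h
      obtain ⟨a, ha, h1⟩ := ih h
      exact ⟨a, List.mem_cons_of_mem _ ha, h1⟩
    · exact ⟨b, List.mem_cons_self, hp⟩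

/-- Formal vectors: sums of products of a form and a vector. -/
inductive FV where
  | nil : FV
  | cons (φ : Fm) (row : List ℕ) (t : FV) : FV

/-- The formal vector describes `y`. -/
def FAp (val : ℕ → F) (P : FV) : (ℕ → F) → Prop :=
  FV.rec (fun y => y = 0)
    (fun φ row _ ih y => ∃ z y', Ap row z ∧ ih y' ∧ y = ev val φ • z + y') P

/-- Add the term `φ * row`, if `φ` does not reduce to zero. -/
noncomputable def consF (t : Tr) (φ : Fm) (row : List ℕ) (P : FV) : FV :=
  Fm.rec P (fun v c r _ => .cons (.cons v c r) row P) (red t φ)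

lemma fap_consF {val : ℕ → F} {t : Tr} (h : TrH val t) (φ : Fm) {row : List ℕ} {P : FV}
    {z y : ℕ → F} (hz : Ap row z) (hy : FAp val P y) :
    FAp val (consF t φ row P) (ev val φ • z + y) := by
  rw [← ev_red h, consF]
  cases red t φ with
  | nil => rwa [ev_nil, zero_smul, zero_add]
  | cons v c r => exact ⟨z, y, hz, hy, rfl⟩

/-- The value of a functional on a formal vector, plus `o`. -/
noncomputable def lamF (t : Tr) (l : List ℕ) (P : FV) (o : Option Fm) : Option Fm :=
  FV.rec o (fun φ row _ ih => term t (ddot l row) φ ih) P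

lemma eo_lamF {val : ℕ → F} {t : Tr} (h : TrH val t) (l : List ℕ) {P : FV} {y : ℕ → F}
    (hy : FAp val P y) {o : Option Fm} {a : F} (ho : Eo val o a) :
    Eo val (lamF t l P o) (lam l y + a) := by
  induction P generalizing y with
  | nil =>
    obtain rfl : y = 0 := hy
    rwa [map_zero, zero_add]
  | cons φ row P ih =>
    obtain ⟨z, y', hz, hy', rfl⟩ := hy
    rw [map_add, map_smul, smul_eq_mul, mul_comm, add_assoc]
    exact eo_term h (dg_ddot l hz) φ (ih hy')

end Vale.Agent.P236E
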