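import Vale.Agent.P236E.SS

/-!
# P236, block ENG: tables as rows of digits, words of multipliers

Digits are `0, 1, 2`; every other value is an unknown entry.
-/

namespace Vale.Agent.P236E

open Vale.Agent.P236K

/-- Case distinction on a digit. -/
noncomputable def fd {α : Type} (d : ℕ) (k0 k1 k2 k3 : α) : α :=
  Nat.rec k0 (fun d1 _ => Nat.rec k1 (fun d2 _ => Nat.rec k2 (fun _ _ => k3) d2) d1) d

@[simp] lemma fd_zero {α : Type} (k0 k1 k2 k3 : α) : fd 0 k0 k1 k2 k3 = k0 := rfl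
@[simp] lemma fd_one {α : Type} (k0 k1 k2 k3 : α) : fd 1 k0 k1 k2 k3 = k1 := rfl
@[simp] lemma fd_two {α : Type} (k0 k1 k2 k3 : α) : fd 2 k0 k1 k2 k3 = k2 := rfl
@[simp] lemma fd_big {α : Type} (n : ℕ) (k0 k1 k2 k3 : α) : fd (n + 3) k0 k1 k2 k3 = k3 := rfl

lemma digit_cases (d : ℕ) : d = 0 ∨ d = 1 ∨ d = 2 ∨ ∃ n, d = n + 3 := by
  rcases d with _ | _ | _ | n
  · exact Or.inl rfl
  · exact Or.inr (Or.inl rfl)
  · exact Or.inr (Or.inr (Or.inl rfl))
  · exact Or.inr (Or.inr (Or.inr ⟨n, rfl⟩))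

/-- Evaluate a number before using it. -/
noncomputable def fn {α : Type} (n : ℕ) (k : ℕ → α) : α :=
  Nat.rec (k 0) (fun m _ => k m) (Nat.add n 1)

@[simp] lemma fn_eq {α : Type} (n : ℕ) (k : ℕ → α) : fn n k = k n := rfl

/-- The digit `d` describes `a`. -/
def Dg (d : ℕ) (a : F) : Prop := d < 3 → a = d

lemma dg_zero {a : F} : Dg 0 a ↔ a = 0 := by simp [Dg]
lemma dg_one {a : F} : Dg 1 a ↔ a = 1 := by simp [Dg]
lemma dg_two {a : F} : Dg 2 a ↔ a = 2 := by simp [Dg]
lemma dg_big (n : ℕ) (a : F) : Dg (n + 3) a := fun h => absurd h (by omega)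
lemma dg_three (a : F) : Dg 3 a := dg_big 0 a

noncomputable def dadd (a b : ℕ) : ℕ := fd a b (fd b 1 2 0 3) (fd b 2 0 1 3) 3

noncomputable def dneg (a : ℕ) : ℕ := fd a 0 2 1 3

noncomputable def dunk (a : ℕ) : ℕ := fd a 0 3 3 3

noncomputable def dmul (a b : ℕ) : ℕ := fd a 0 b (dneg b) (dunk b)

lemma Dg.add {a b : ℕ} {x y : F} (h : Dg a x) (h' : Dg b y) : Dg (dadd a b) (x + y) := by
  rcases digit_cases a with rfl | rfl | rfl | ⟨n, rfl⟩ <;>
    rcases digit_cases b with rfl | rfl | rfl | ⟨m, rfl⟩ <;>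
    simp only [dadd, fd_zero, fd_one, fd_two, fd_big, dg_zero, dg_one, dg_two,
      dg_big] at h h' ⊢ <;> subst h h' <;> decide

lemma Dg.neg {a : ℕ} {x : F} (h : Dg a x) : Dg (dneg a) (-x) := by
  rcases digit_cases a with rfl | rfl | rfl | ⟨n, rfl⟩ <;>
    simp only [dneg, fd_zero, fd_one, fd_two, fd_big, dg_zero, dg_one, dg_two,
      dg_big] at h ⊢ <;> subst h <;> decide

lemma Dg.unk {a : ℕ} {x : F} (h : Dg a x) (c : F) : Dg (dunk a) (c * x) := by
  rcases digit_cases a with rfl | rfl | rfl | ⟨n, rfl⟩ <;>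
    simp only [dunk, fd_zero, fd_one, fd_two, fd_big, dg_zero, dg_three] at h ⊢
  rw [h, mul_zero]

lemma dg_unk_zero (a : ℕ) : Dg (dunk a) 0 := by
  rcases digit_cases a with rfl | rfl | rfl | ⟨n, rfl⟩ <;>
    simp only [dunk, fd_zero, fd_one, fd_two, fd_big, dg_zero, dg_three]

lemma two_mul_F (x : F) : 2 * x = -x := by
  revert x; decide

lemma Dg.mul {a b : ℕ} {x y : F} (h : Dg a x) (h' : Dg b y) : Dg (dmul a b) (x * y) := by
  rcases digit_cases a with rfl | rfl | rfl | ⟨n, rfl⟩ <;>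
    simp only [dmul, fd_zero, fd_one, fd_two, fd_big, dg_zero, dg_one, dg_two] at h ⊢
  · rw [h, zero_mul]
  · rw [h, one_mul]; exact h'
  · rw [h, two_mul_F]; exact h'.neg
  · exact h'.unk x

/-- The list of digits `xs` describes the vector `y`. -/
def Ap (xs : List ℕ) (y : ℕ → F) : Prop := ∀ l, Dg (xs.getD l 0) (y l)

lemma ap_nil {y : ℕ → F} : Ap [] y ↔ y = 0 := by
  simp [Ap, dg_zero, funext_iff]

lemma ap_cons {a : ℕ} {xs : List ℕ} {y : ℕ → F} :
    Ap (a :: xs) y ↔ Dg a (y 0) ∧ Ap xs (fun l => y (l + 1)) := by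
  constructor
  · exact fun h => ⟨h 0, fun l => h (l + 1)⟩
  · rintro ⟨h0, h1⟩ (_ | l)
    · exact h0
    · exact h1 l

lemma Ap.ge {xs : List ℕ} {y : ℕ → F} (h : Ap xs y) {l : ℕ} (hl : xs.length ≤ l) : y l = 0 := by
  have := h l
  rwa [List.getD_eq_default _ _ hl, dg_zero] at this

noncomputable def vadd (xs : List ℕ) : List ℕ → List ℕ :=
  List.rec (fun ys => ys)
    (fun a xs ih ys => List.rec (a :: xs) (fun b ys' _ => dadd a b :: ih ys') ys) xs

noncomputable def vneg (xs : List ℕ) : List ℕ := List.rec [] (fun a _ ih => dneg a :: ih) xs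

noncomputable def vunk (xs : List ℕ) : List ℕ := List.rec [] (fun a _ ih => dunk a :: ih) xs

noncomputable def vsc (c : ℕ) (xs : List ℕ) : List ℕ := fd c [] xs (vneg xs) (vunk xs)

/-- The unknown vector. -/
noncomputable def unk (n : ℕ) : List ℕ := Nat.rec [] (fun _ ih => 3 :: ih) n

lemma Ap.add {xs ys : List ℕ} {x y : ℕ → F} (h : Ap xs x) (h' : Ap ys y) :
    Ap (vadd xs ys) (x + y) := by
  induction xs generalizing ys x y with
  | nil => rw [ap_nil.1 h, zero_add]; exact h'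
  | cons a xs ih =>
    cases ys with
    | nil => rw [ap_nil.1 h', add_zero]; exact h
    | cons b ys =>
      rw [ap_cons] at h h'
      exact ap_cons.2 ⟨h.1.add h'.1, ih h.2 h'.2⟩

lemma Ap.neg {xs : List ℕ} {x : ℕ → F} (h : Ap xs x) : Ap (vneg xs) (-x) := by
  induction xs generalizing x with
  | nil => rw [ap_nil.1 h, neg_zero]; exact ap_nil.2 rfl
  | cons a xs ih =>
    rw [ap_cons] at h
    exact ap_cons.2 ⟨h.1.neg, ih h.2⟩

lemma Ap.vunk {xs : List ℕ} {x : ℕ → F} (h : Ap xs x) (c : F) : Ap (vunk xs) (c • x) := by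
  induction xs generalizing x with
  | nil => rw [ap_nil.1 h, smul_zero]; exact ap_nil.2 rfl
  | cons a xs ih =>
    rw [ap_cons] at h
    exact ap_cons.2 ⟨h.1.unk c, ih h.2⟩

lemma ap_vunk_zero (xs : List ℕ) : Ap (vunk xs) 0 := by
  induction xs with
  | nil => exact ap_nil.2 rfl
  | cons a xs ih => exact ap_cons.2 ⟨dg_unk_zero a, ih⟩

lemma ap_vsc {c : ℕ} {a : F} {xs : List ℕ} {x : ℕ → F} (hc : Dg c a) (h : a ≠ 0 → Ap xs x) :
    Ap (vsc c xs) (a • x) := by
  rcases digit_cases c with rfl | rfl | rfl | ⟨n, rfl⟩ <;>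
    simp only [vsc, fd_zero, fd_one, fd_two, fd_big, dg_zero, dg_one, dg_two] at hc ⊢
  · rw [hc, zero_smul]; exact ap_nil.2 rfl
  · rw [hc, one_smul]; exact h (by rw [hc]; decide)
  · have e : a • x = -x := by
      funext l
      rw [hc, Pi.smul_apply, smul_eq_mul, two_mul_F, Pi.neg_apply]
    rw [e]
    exact (h (by rw [hc]; decide)).neg
  · by_cases ha : a = 0
    · rw [ha, zero_smul]; exact ap_vunk_zero xs
    · exact (h ha).vunk a

lemma ap_unk {n : ℕ} {y : ℕ → F} (h : ∀ l, n ≤ l → y l = 0) : Ap (unk n) y := by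
  induction n generalizing y with
  | zero => exact ap_nil.2 (funext fun l => h l (Nat.zero_le l))
  | succ n ih => exact ap_cons.2 ⟨dg_three _, ih fun l hl => h (l + 1) (by omega)⟩

/-- The combination of the rows `i, i + 1, …` with the coefficients `xs`. -/
noncomputable def mv (row : ℕ → List ℕ) (xs : List ℕ) : ℕ → List ℕ :=
  List.rec (fun _ => [])
    (fun a _ ih i => fd a (ih (Nat.succ i)) (vadd (row i) (ih (Nat.succ i)))
      (vadd (vneg (row i)) (ih (Nat.succ i))) (vadd (vunk (row i)) (ih (Nat.succ i)))) xs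

lemma mv_cons (row : ℕ → List ℕ) (a : ℕ) (xs : List ℕ) (i : ℕ) :
    mv row (a :: xs) i = vadd (vsc a (row i)) (mv row xs (i + 1)) := by
  rcases digit_cases a with rfl | rfl | rfl | ⟨n, rfl⟩ <;> rfl

lemma ap_mv {a : ℕ → F} {R : ℕ → ℕ → F} {row : ℕ → List ℕ}
    (h : ∀ i, a i ≠ 0 → Ap (row i) (R i)) (xs : List ℕ) (i₀ : ℕ)
    (hx : Ap xs fun i => a (i₀ + i)) :
    Ap (mv row xs i₀) (∑ i ∈ Finset.range xs.length, a (i₀ + i) • R (i₀ + i)) := by
  induction xs generalizing i₀ with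
  | nil => exact ap_nil.2 (by simp)
  | cons c xs ih =>
    rw [ap_cons] at hx
    rw [mv_cons, List.length_cons, Finset.sum_range_succ', add_comm (∑ _ ∈ _, _)]
    refine (ap_vsc hx.1 (h _)).add ?_
    have := ih (i₀ + 1) (by simpa only [add_assoc, add_comm 1] using hx.2)
    simpa only [add_assoc, add_comm 1] using this

/-- Tables by rows. -/
structure Orc where
  ok : ℕ → ℕ → Bool
  dim : ℕ → ℕ → ℕ
  ms : ℕ → ℕ
  mT : ℕ → ℕ
  /-- `gen k s T i`: the product of the multiplier `k` with the basis element `i` of `(s, T)` -/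
  gen : ℕ → ℕ → ℕ → ℕ → List ℕ
  /-- `bok s T i`: the Bockstein of the basis element `i` of `(s, T)` -/
  bok : ℕ → ℕ → ℕ → List ℕ
  lead : ℕ → ℕ

/-- The rows describe the spectral sequence. -/
structure CrdO (O : Orc) (S : SS) where
  co : ℕ → ℕ → S.A →ₗ[F] (ℕ → F)
  co_ge : ∀ {s T i} (x), O.dim s T ≤ i → co s T x i = 0
  inj : ∀ {s T x}, O.ok s T = true → x ∈ S.G s T → co s T x = 0 → x = 0
  surj : ∀ {s T i}, O.ok s T = true → i < O.dim s T → ∃ x ∈ S.G s T, co s T x = Pi.single i 1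
  ok_zero : O.ok 0 0 = true
  co_one : co 0 0 S.one = Pi.single 0 1
  mu : ℕ → S.A
  mu_mem : ∀ k, mu k ∈ S.G (O.ms k) (O.mT k)
  gen : ∀ {k s T i z}, O.ok s T = true → z ∈ S.G s T → co s T z = Pi.single i 1 →
    Ap (O.gen k s T i) (co (O.ms k + s) (O.mT k + T) (S.mul (mu k) z))
  bok : ∀ {s T i z}, O.ok s T = true → z ∈ S.G s T → co s T z = Pi.single i 1 →
    Ap (O.bok s T i) (co (s + 1) T (S.β z))
  lead : ∀ j ≤ 3, ∀ y ∈ S.G 2 (3 ^ (j + 1)),
    co 2 (3 ^ (j + 1)) y (O.lead j) ≠ 0 → y ∈ S.Ld j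

/-- The list `f i, …, f (i + n - 1)`. -/
noncomputable def tabu (f : ℕ → ℕ) (n : ℕ) : ℕ → List ℕ :=
  Nat.rec (fun _ => []) (fun _ ih i => f i :: ih (Nat.succ i)) n

lemma ap_tabu {f : ℕ → ℕ} {n i : ℕ} {y : ℕ → F} (h : ∀ l, Dg (f (i + l)) (y l))
    (h0 : ∀ l, n ≤ l → y l = 0) : Ap (tabu f n i) y := by
  induction n generalizing y i with
  | zero => exact ap_nil.2 (funext fun l => h0 l (Nat.zero_le l))
  | succ n ih =>
    refine ap_cons.2 ⟨h 0, ih (i := i + 1) (fun l => ?_) fun l hl => h0 (l + 1) (by omega)⟩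
    simpa only [add_assoc, add_comm 1] using h (l + 1)

/-- The rows of a table. -/
noncomputable def ofTab (τ : Tab) : Orc where
  ok := τ.reg
  dim := τ.dim
  ms := τ.ms
  mT := τ.mT
  gen k s T i := fn (τ.ms k + s) fun s' => fn (τ.mT k + T) fun T' =>
    cond (τ.reg s' T') (tabu (τ.mul k s T i) (τ.dim s' T') 0) (unk (τ.dim s' T'))
  bok s T i := fn (s + 1) fun s' =>
    cond (τ.reg s' T) (tabu (τ.bok s T i) (τ.dim s' T) 0) (unk (τ.dim s' T))
  lead := τ.lead

/-- The rows of a table describe the spectral sequence. -/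
def CrdO.ofCrd {τ : Tab} {S : SS} (C : Crd τ S) : CrdO (ofTab τ) S where
  co := C.co
  co_ge := C.co_ge
  inj := C.inj
  surj := C.surj
  ok_zero := C.reg_zero
  co_one := C.co_one
  mu := C.mu
  mu_mem := C.mu_mem
  gen := by
    intro k s T i z h hz hc
    change Ap (cond (τ.reg (τ.ms k + s) (τ.mT k + T)) _ _) _
    cases h' : τ.reg (τ.ms k + s) (τ.mT k + T)
    · exact ap_unk fun l hl => C.co_ge _ hl
    · refine ap_tabu (fun l hl => ?_) fun l hl => C.co_ge _ hl
      rw [zero_add] at hl ⊢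
      exact C.mul h h' hl hz hc
  bok := by
    intro s T i z h hz hc
    change Ap (cond (τ.reg (s + 1) T) _ _) _
    cases h' : τ.reg (s + 1) T
    · exact ap_unk fun l hl => C.co_ge _ hl
    · refine ap_tabu (fun l hl => ?_) fun l hl => C.co_ge _ hl
      rw [zero_add] at hl ⊢
      exact C.bok h h' hl hz hc
  lead j hj := (C.lead j hj).2

/-- Words in the multipliers. -/
inductive Mx where
  | one : Mx
  | gen (k : ℕ) : Mx
  | mul (a b : Mx) : Mx
  | add (a b : Mx) : Mx
  | neg (a : Mx) : Mx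
  | bok (a : Mx) : Mx

/-- The filtration of a word. -/
noncomputable def Orc.dS (O : Orc) (m : Mx) : ℕ :=
  Mx.rec 0 O.ms (fun _ _ a b => Nat.add a b) (fun _ _ a _ => a) (fun _ a => a)
    (fun _ a => Nat.add a 1) m

/-- The degree of a word. -/
noncomputable def Orc.dT (O : Orc) (m : Mx) : ℕ :=
  Mx.rec 0 O.mT (fun _ _ a b => Nat.add a b) (fun _ _ a _ => a) (fun _ a => a) (fun _ a => a) m

/-- Two words have the same bidegree. -/
noncomputable def Orc.same (O : Orc) (a b : Mx) : Bool :=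
  and (Nat.beq (O.dS a) (O.dS b)) (Nat.beq (O.dT a) (O.dT b))

/-- The Bockstein in coordinates. -/
noncomputable def Orc.bact (O : Orc) (s T : ℕ) (xs : List ℕ) : List ℕ :=
  cond (O.ok s T) (mv (O.bok s T) xs 0) (unk (O.dim (s + 1) T))

/-- The product with a multiplier in coordinates. -/
noncomputable def Orc.gact (O : Orc) (k s T : ℕ) (xs : List ℕ) : List ℕ :=
  cond (O.ok s T) (mv (O.gen k s T) xs 0) (unk (O.dim (O.ms k + s) (O.mT k + T)))

/-- `- xs` for even `a`, `xs` for odd `a`. -/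
noncomputable def vsg (a : ℕ) (xs : List ℕ) : List ℕ :=
  Nat.rec (vneg xs) (fun _ _ => xs) (Nat.mod a 2)

/-- The product with a word in coordinates. -/
noncomputable def Orc.act (O : Orc) (m : Mx) : ℕ → ℕ → List ℕ → List ℕ :=
  Mx.rec (fun _ _ xs => xs) (fun k s T xs => O.gact k s T xs)
    (fun _ b ia ib s T xs => fn (Nat.add (O.dS b) s) fun s' => fn (Nat.add (O.dT b) T) fun T' =>
      ia s' T' (ib s T xs))
    (fun a b ia ib s T xs => cond (O.same a b) (vadd (ia s T xs) (ib s T xs)) (ia s T xs))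
    (fun _ ia s T xs => vneg (ia s T xs))
    (fun a ia s T xs => fn (Nat.add (O.dS a) s) fun s' => fn (Nat.add (O.dT a) T) fun T' =>
      fn (Nat.add s 1) fun s₁ =>
        vadd (O.bact s' T' (ia s T xs)) (vsg (O.dS a) (ia s₁ T (O.bact s T xs)))) m

lemma Ap.vsg {xs : List ℕ} {x : ℕ → F} (h : Ap xs x) (a : ℕ) :
    Ap (vsg a xs) (-((-1 : F) ^ a • x)) := by
  rcases Nat.even_or_odd' a with ⟨k, rfl | rfl⟩
  · have e : Nat.mod (2 * k) 2 = 0 := Nat.mul_mod_right 2 k
    rw [P236E.vsg, e, pow_mul, neg_one_sq, one_pow, one_smul]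
    exact h.neg
  · have e : Nat.mod (2 * k + 1) 2 = 1 := by
      change (2 * k + 1) % 2 = 1
      omega
    rw [P236E.vsg, e, pow_succ, pow_mul, neg_one_sq, one_pow, one_mul, neg_one_smul, neg_neg]
    exact h

namespace CrdO

variable {O : Orc} {S : SS} (C : CrdO O S)

open Classical in
/-- The basis elements. -/
noncomputable def e (s T i : ℕ) : S.A :=
  if h : ∃ x ∈ S.G s T, C.co s T x = Pi.single i 1 then h.choose else 0

lemma e_mem (s T i : ℕ) : C.e s T i ∈ S.G s T := by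
  rw [e]
  split_ifs with h
  · exact h.choose_spec.1
  · exact zero_mem _

lemma co_e {s T i : ℕ} (h : O.ok s T = true) (hi : i < O.dim s T) :
    C.co s T (C.e s T i) = Pi.single i 1 := by
  have h1 := C.surj h hi
  rw [e, dif_pos h1]
  exact h1.choose_spec.2

lemma lt_dim {s T i : ℕ} {x : S.A} (h : C.co s T x i ≠ 0) : i < O.dim s T := by
  by_contra h1
  exact h (C.co_ge x (by omega))

lemma expand {s T n : ℕ} {x : S.A} (h : O.ok s T = true) (hx : x ∈ S.G s T)
    (hn : ∀ l, n ≤ l → C.co s T x l = 0) :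
    x = ∑ i ∈ Finset.range n, C.co s T x i • C.e s T i := by
  rw [← sub_eq_zero]
  refine C.inj h (sub_mem hx (Submodule.sum_mem _ fun i _ =>
    Submodule.smul_mem _ _ (C.e_mem s T i))) ?_
  rw [map_sub, map_sum, sub_eq_zero]
  funext l
  rw [Finset.sum_apply]
  have h1 : ∀ i, (C.co s T (C.co s T x i • C.e s T i)) l =
      if i = l then C.co s T x l else 0 := by
    intro i
    by_cases hi : C.co s T x i = 0
    · rw [hi, zero_smul, map_zero]
      split_ifs with h2
      · rw [← h2, hi]; rfl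
      · rfl
    · rw [map_smul, C.co_e h (C.lt_dim hi), Pi.smul_apply, Pi.single_apply, smul_eq_mul]
      split_ifs with h2 h3 h3
      · rw [h2, mul_one]
      · exact absurd h2.symm h3
      · exact absurd h3.symm h2
      · rw [mul_zero]
  simp only [h1, Finset.sum_ite_eq', Finset.mem_range]
  split_ifs with h2
  · rfl
  · exact hn l (by omega)

lemma ap_lin {s T : ℕ} {x : S.A} (h : O.ok s T = true) (hx : x ∈ S.G s T) {xs : List ℕ}
    (ha : Ap xs (C.co s T x)) (L : S.A →ₗ[F] (ℕ → F)) {row : ℕ → List ℕ}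
    (hr : ∀ i < O.dim s T, Ap (row i) (L (C.e s T i))) : Ap (mv row xs 0) (L x) := by
  have h1 := ap_mv (a := C.co s T x) (R := fun i => L (C.e s T i)) (row := row)
    (fun i hi => hr i (C.lt_dim hi)) xs 0 (by simpa only [zero_add] using ha)
  simp only [zero_add] at h1
  rw [C.expand h hx fun l hl => ha.ge hl, map_sum]
  simpa only [map_smul] using h1

lemma ap_bact {s T : ℕ} {x : S.A} (hx : x ∈ S.G s T) {xs : List ℕ}
    (ha : Ap xs (C.co s T x)) : Ap (O.bact s T xs) (C.co (s + 1) T (S.β x)) := by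
  rw [Orc.bact]
  cases h : O.ok s T
  · exact ap_unk fun l hl => C.co_ge _ hl
  · exact C.ap_lin h hx ha ((C.co (s + 1) T).comp S.β) fun i hi =>
      C.bok h (C.e_mem s T i) (C.co_e h hi)

lemma ap_gact (k : ℕ) {s T : ℕ} {x : S.A} (hx : x ∈ S.G s T) {xs : List ℕ}
    (ha : Ap xs (C.co s T x)) :
    Ap (O.gact k s T xs) (C.co (O.ms k + s) (O.mT k + T) (S.mul (C.mu k) x)) := by
  rw [Orc.gact]
  cases h : O.ok s T
  · exact ap_unk fun l hl => C.co_ge _ hl
  · exact C.ap_lin h hx ha ((C.co _ _).comp (S.mul (C.mu k))) fun i hi =>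
      C.gen h (C.e_mem s T i) (C.co_e h hi)

/-- The class of a word. -/
noncomputable def den (m : Mx) : S.A :=
  Mx.rec S.one C.mu (fun _ _ x y => S.mul x y) (fun a b x y => cond (O.same a b) (x + y) x)
    (fun _ x => -x) (fun _ x => S.β x) m

lemma same_iff {a b : Mx} (h : O.same a b = true) : O.dS a = O.dS b ∧ O.dT a = O.dT b := by
  simpa only [Orc.same, Bool.and_eq_true, Nat.beq_eq] using h

lemma den_mem (m : Mx) : C.den m ∈ S.G (O.dS m) (O.dT m) := by
  induction m with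
  | one => exact S.one_mem
  | gen k => exact C.mu_mem k
  | mul a b ha hb => exact S.mul_mem ha hb
  | add a b ha hb =>
    change cond (O.same a b) (C.den a + C.den b) (C.den a) ∈ S.G (O.dS a) (O.dT a)
    cases h : O.same a b
    · exact ha
    · rw [← (same_iff h).1, ← (same_iff h).2] at hb
      exact add_mem ha hb
  | neg a ha => exact neg_mem ha
  | bok a ha => exact S.β_mem ha

/-- **Soundness of `act`.** -/
theorem ap_act (m : Mx) {s T : ℕ} {x : S.A} (hx : x ∈ S.G s T) {xs : List ℕ}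
    (ha : Ap xs (C.co s T x)) :
    Ap (O.act m s T xs) (C.co (O.dS m + s) (O.dT m + T) (S.mul (C.den m) x)) := by
  induction m generalizing s T x xs with
  | one =>
    change Ap xs (C.co (0 + s) (0 + T) (S.mul S.one x))
    rwa [S.one_mul hx, zero_add, zero_add]
  | gen k => exact C.ap_gact k hx ha
  | mul a b iha ihb =>
    change Ap (O.act a (O.dS b + s) (O.dT b + T) (O.act b s T xs))
      (C.co (O.dS a + O.dS b + s) (O.dT a + O.dT b + T) (S.mul (S.mul (C.den a) (C.den b)) x))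
    rw [S.mul_assoc (C.den_mem a) (C.den_mem b) hx, add_assoc, add_assoc]
    exact iha (S.mul_mem (C.den_mem b) hx) (ihb hx ha)
  | add a b iha ihb =>
    change Ap (cond (O.same a b) (vadd (O.act a s T xs) (O.act b s T xs)) (O.act a s T xs))
      (C.co (O.dS a + s) (O.dT a + T)
        (S.mul (cond (O.same a b) (C.den a + C.den b) (C.den a)) x))
    cases h : O.same a b
    · exact iha hx ha
    · have h2 := ihb hx ha
      rw [← (same_iff h).1, ← (same_iff h).2] at h2
      rw [cond_true, cond_true, map_add, LinearMap.add_apply, map_add]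
      exact (iha hx ha).add h2
  | neg a iha =>
    change Ap (vneg (O.act a s T xs)) (C.co (O.dS a + s) (O.dT a + T) (S.mul (-C.den a) x))
    rw [map_neg, LinearMap.neg_apply, map_neg]
    exact (iha hx ha).neg
  | bok a iha =>
    change Ap (vadd (O.bact (O.dS a + s) (O.dT a + T) (O.act a s T xs))
      (vsg (O.dS a) (O.act a (s + 1) T (O.bact s T xs))))
      (C.co (O.dS a + 1 + s) (O.dT a + T) (S.mul (S.β (C.den a)) x))
    have h1 := C.ap_bact (S.mul_mem (C.den_mem a) hx) (iha hx ha)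
    have h2 := (iha (S.β_mem hx) (C.ap_bact hx ha)).vsg (O.dS a)
    have e : S.mul (S.β (C.den a)) x = S.β (S.mul (C.den a) x) +
        -((-1 : F) ^ O.dS a • S.mul (C.den a) (S.β x)) := by
      rw [S.β_mul (C.den_mem a) hx, add_neg_cancel_right]
    rw [e, map_add, map_neg, map_smul, show O.dS a + 1 + s = O.dS a + s + 1 by omega]
    exact h1.add h2

/-- The coordinates of a word. -/
theorem ap_unit (m : Mx) : Ap (O.act m 0 0 [1]) (C.co (O.dS m) (O.dT m) (C.den m)) := by
  have h := C.ap_act m S.one_mem (xs := [1]) (by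
    rw [C.co_one]
    exact ap_cons.2 ⟨dg_one.2 (by simp), ap_nil.2 (funext fun l => by simp)⟩)
  rwa [S.mul_one (C.den_mem m), add_zero, add_zero] at h

end CrdO

end Vale.Agent.P236E
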