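import Vale.Agent.P236K.Spec

/-!
# P236, block ENG: the abstract spectral sequence

* `SS`: the `E₂`-term as one vector space `A` over `F₃` with subspaces `G s T`, the product, the
  Bockstein `β`, the differentials `D5`, `D9`, permanent cycles `P`, boundaries `B t`.
* `Crd τ S`: the tables `τ` describe `S`.
* `SS.Out j`, `SS.Out3 j`, `SS.Out1`: the output of the computation.
-/

namespace Vale.Agent.P236E

open Vale.Agent.P236K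

/-- The field with three elements. -/
abbrev F : Type := ZMod 3

/-- The abstract spectral sequence. -/
structure SS where
  A : Type
  [acg : AddCommGroup A]
  [mod : Module F A]
  /-- the cell of filtration `s` and internal degree `4 T` -/
  G : ℕ → ℕ → Submodule F A
  van : ∀ {s T x}, 2 * T + 1 < 3 * s → x ∈ G s T → x = 0
  mul : A →ₗ[F] A →ₗ[F] A
  mul_mem : ∀ {a U s T x y}, x ∈ G a U → y ∈ G s T → mul x y ∈ G (a + s) (U + T)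
  mul_assoc : ∀ {a U b V s T x y z}, x ∈ G a U → y ∈ G b V → z ∈ G s T →
    mul (mul x y) z = mul x (mul y z)
  mul_comm : ∀ {a U s T x y}, x ∈ G a U → y ∈ G s T → mul x y = (-1 : F) ^ (a * s) • mul y x
  one : A
  one_mem : one ∈ G 0 0
  mul_one : ∀ {s T x}, x ∈ G s T → mul x one = x
  one_mul : ∀ {s T x}, x ∈ G s T → mul one x = x
  β : A →ₗ[F] A
  β_mem : ∀ {s T x}, x ∈ G s T → β x ∈ G (s + 1) T
  β_mul : ∀ {a U s T x y}, x ∈ G a U → y ∈ G s T →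
    β (mul x y) = mul (β x) y + (-1 : F) ^ a • mul x (β y)
  D5 : A →ₗ[F] A
  D5_mem : ∀ {s T x}, x ∈ G s T → D5 x ∈ G (s + 5) (T + 1)
  D5_mul : ∀ {a U s T x y}, x ∈ G a U → y ∈ G s T →
    D5 (mul x y) = mul (D5 x) y + (-1 : F) ^ a • mul x (D5 y)
  D5_β : ∀ {s T x}, x ∈ G s T → D5 (β x) = -β (D5 x)
  D5_D5 : ∀ {s T x}, x ∈ G s T → D5 (D5 x) = 0
  D9 : A →ₗ[F] A
  D9_mem : ∀ {s T x}, x ∈ G s T → D9 x ∈ G (s + 9) (T + 2)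
  D9_mul : ∀ {a U s T x y}, x ∈ G a U → y ∈ G s T → D5 x = 0 → D5 y = 0 →
    ∃ c ∈ G (a + s + 4) (U + T + 1),
      D9 (mul x y) = mul (D9 x) y + (-1 : F) ^ a • mul x (D9 y) + D5 c
  D9_β : ∀ {s T x}, x ∈ G s T → D5 x = 0 → ∃ c ∈ G (s + 5) (T + 1), D9 (β x) = -β (D9 x) + D5 c
  D9_D5 : ∀ {s T x}, x ∈ G s T → ∃ c ∈ G (s + 9) (T + 2), D9 (D5 x) = D5 c
  D5_D9 : ∀ {s T x}, x ∈ G s T → D5 x = 0 → D5 (D9 x) = 0
  D9_D9 : ∀ {s T x}, x ∈ G s T → D5 x = 0 → ∃ c ∈ G (s + 13) (T + 3), D9 (D9 x) = D5 c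
  /-- permanent cycles of the cell `(s, T)` -/
  P : ℕ → ℕ → Submodule F A
  /-- `B t s T`: classes of the cell `(s, T)` which are killed from the filtrations `≥ t` -/
  B : ℕ → ℕ → ℕ → Set A
  P_le : ∀ {s T x}, x ∈ P s T → x ∈ G s T
  P_D5 : ∀ {s T x}, x ∈ P s T → D5 x = 0
  P_D9 : ∀ {s T x}, x ∈ P s T → ∃ c ∈ G (s + 4) (T + 1), D9 x = D5 c
  P_of : ∀ {s T x}, x ∈ G s T → D5 x = 0 → (∃ c ∈ G (s + 4) (T + 1), D9 x = D5 c) →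
    (∀ k, 3 ≤ k → ∀ y ∈ P (s + 4 * k + 1) (T + k), y ∈ B (s + 1) (s + 4 * k + 1) (T + k)) →
    x ∈ P s T
  P_mul : ∀ {a U s T x y}, x ∈ P a U → y ∈ P s T → mul x y ∈ P (a + s) (U + T)
  P_β : ∀ {s T x}, x ∈ P s T → β x ∈ P (s + 1) T
  B_P : ∀ {t s T x}, x ∈ B t s T → x ∈ P s T
  B_zero : ∀ {t s T}, t ≤ s → 0 ∈ B t s T
  B_add : ∀ {t s T x y}, x ∈ B t s T → y ∈ B t s T → x + y ∈ B t s T
  B_smul : ∀ {t s T x} (c : F), x ∈ B t s T → c • x ∈ B t s T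
  B_mono : ∀ {t t' s T x}, t' ≤ t → x ∈ B t s T → x ∈ B t' s T
  B_D5 : ∀ {s T x}, x ∈ G s T → D5 x ∈ B s (s + 5) (T + 1)
  B_D9 : ∀ {s T x}, x ∈ G s T → D5 x = 0 → D9 x ∈ B s (s + 9) (T + 2)
  B_succ : ∀ {t s T y}, y ∈ B t s T → t + 2 ≤ s →
    (∀ k W, s = t + 4 * k + 1 → T = W + k → ∀ u ∈ G t W, u ∈ P t W) → y ∈ B (t + 1) s T
  B_elim5 : ∀ {t s T y}, y ∈ B t (s + 5) (T + 1) → s ≤ t + 3 → ∃ a ∈ G s T, y = D5 a
  B_elim9 : ∀ {t s T y}, y ∈ B t (s + 9) (T + 2) → s ≤ t + 3 →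
    ∃ a ∈ G (s + 4) (T + 1), ∃ c ∈ G s T, D5 c = 0 ∧ y = D5 a + D9 c
  /-- the seeds -/
  t : A
  b : A
  t_mem : t ∈ P 1 1
  b_mem : b ∈ P 2 3
  t_ne : t ≠ 0
  b_ne : b ≠ 0
  seed5 : mul t (mul b (mul b b)) ∈ B 0 7 10
  seed9 : mul b (mul b (mul b (mul b (mul b (mul b b))))) ∈ B 1 14 21
  /-- periodicity -/
  b_onto : ∀ {s T y}, 2 * T < 9 * s + 1 → y ∈ G (s + 2) (T + 3) → ∃ z ∈ G s T, y = mul z b
  b_inj : ∀ {s T z}, 2 * T < 9 * s + 1 → z ∈ G (s + 1) T → mul z b = 0 → z = 0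
  /-- the classes which reduce to `± b_j` -/
  Ld : ℕ → Set A

attribute [instance] SS.acg SS.mod

/-- The tables describe the spectral sequence. -/
structure Crd (τ : Tab) (S : SS) where
  co : ℕ → ℕ → S.A →ₗ[F] (ℕ → F)
  co_ge : ∀ {s T i} (x), τ.dim s T ≤ i → co s T x i = 0
  inj : ∀ {s T x}, τ.reg s T = true → x ∈ S.G s T → co s T x = 0 → x = 0
  surj : ∀ {s T i}, τ.reg s T = true → i < τ.dim s T → ∃ x ∈ S.G s T, co s T x = Pi.single i 1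
  reg_zero : τ.reg 0 0 = true
  co_one : co 0 0 S.one = Pi.single 0 1
  mu : ℕ → S.A
  mu_mem : ∀ k, mu k ∈ S.G (τ.ms k) (τ.mT k)
  mul : ∀ {k s T i l z}, τ.reg s T = true → τ.reg (τ.ms k + s) (τ.mT k + T) = true →
    τ.mul k s T i l < 3 → z ∈ S.G s T → co s T z = Pi.single i 1 →
      co (τ.ms k + s) (τ.mT k + T) (S.mul (mu k) z) l = (τ.mul k s T i l : ℕ)
  bok : ∀ {s T i l z}, τ.reg s T = true → τ.reg (s + 1) T = true → τ.bok s T i l < 3 →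
    z ∈ S.G s T → co s T z = Pi.single i 1 → co (s + 1) T (S.β z) l = (τ.bok s T i l : ℕ)
  lead : ∀ j ≤ 3, τ.reg 2 (3 ^ (j + 1)) = true ∧ ∀ y ∈ S.G 2 (3 ^ (j + 1)),
    co 2 (3 ^ (j + 1)) y (τ.lead j) ≠ 0 → y ∈ S.Ld j

namespace SS

variable (S : SS)

/-- High filtrations (row `PER`, `P4`). -/
def High : Prop := ∀ s T, 2 * T + 83 < 9 * s → ∀ y ∈ S.P s T, y ∈ S.B (s - 13) s T

/-- Enough for an element of order dividing `9`. -/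
def Out (j : ℕ) : Prop :=
  (∃ x ∈ S.G 1 (3 ^ (j + 1)), ∃ z ∈ S.P 5 (3 ^ (j + 1) + 1), S.D5 x = S.β z ∧ S.β x ∈ S.Ld j) ∧
  ∀ s W, 10 ≤ s → 4 * W + 2 = 4 * 3 ^ (j + 1) + s → ∀ y ∈ S.P s W, y ∈ S.B 5 s W

/-- Enough for an element of order `3`. -/
def Out3 (j : ℕ) : Prop := ∃ x ∈ S.P 1 (3 ^ (j + 1)), S.β x ∈ S.Ld j

/-- The case `j = 1`. -/
def Out1 : Prop := ∀ x ∈ S.P 2 9, x = 0

end SS

end Vale.Agent.P236E
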