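import Vale.Agent.P236E.Chk

/-!
# P236, block ENG: the meaning of the variables and of the facts
-/

namespace Vale.Agent.P236E

lemma band_iff {a b : Bool} : band a b = true ↔ a = true ∧ b = true := by
  cases a <;> cases b <;> simp [band]

lemma bor_iff {a b : Bool} : bor a b = true ↔ a = true ∨ b = true := by
  cases a <;> cases b <;> simp [bor]

lemma imp_true (b : Bool) : imp true b = b := rfl

lemma mem_guard {b : Bool} {l : List Fact} {f : Fact} (h : f ∈ guard b l) : b = true ∧ f ∈ l := by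
  cases b
  · cases h
  · exact ⟨rfl, h⟩

lemma mem_mapL {α β : Type} {g : α → β} {l : List α} {b : β} (h : b ∈ mapL g l) :
    ∃ a ∈ l, g a = b := by
  induction l with
  | nil => cases h
  | cons a l ih =>
    rcases List.mem_cons.1 h with rfl | h
    · exact ⟨a, List.mem_cons_self, rfl⟩
    · obtain ⟨a', h1, h2⟩ := ih h
      exact ⟨a', List.mem_cons_of_mem _ h1, h2⟩

lemma mem_mapL_of {α β : Type} (g : α → β) {l : List α} {a : α} (h : a ∈ l) : g a ∈ mapL g l := by
  induction l with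
  | nil => cases h
  | cons b l ih =>
    rcases List.mem_cons.1 h with rfl | h
    · exact List.mem_cons_self
    · exact List.mem_cons_of_mem _ (ih h)

lemma length_ul (v : ℕ) : (ul v).length ≤ 16 := length_unp 16 v

lemma length_mapL_ul {ls : List ℕ} {l : List ℕ} (h : l ∈ mapL ul ls) : l.length ≤ 16 := by
  obtain ⟨a, -, rfl⟩ := mem_mapL h
  exact length_ul a

lemma Dg.ne_zero {d : ℕ} {a : F} (h : Dg d a) (hd : nz d = true) : a ≠ 0 := by
  rcases digit_cases d with rfl | rfl | rfl | ⟨n, rfl⟩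
  · cases hd
  · rw [dg_one.1 h]; decide
  · rw [dg_two.1 h]; decide
  · cases hd

lemma dg_cs (d : ℕ) : Dg d (cs d) := by
  rcases digit_cases d with rfl | rfl | rfl | ⟨n, rfl⟩
  · exact dg_zero.2 rfl
  · exact dg_one.2 rfl
  · exact dg_two.2 rfl
  · exact dg_big _ _

lemma hasF_sound {fs : List Fact} {f : Fact} (h : hasF fs f = true) : f ∈ fs := by
  obtain ⟨g, hg, e⟩ := anyL_sound h
  exact of_decide_eq_true e ▸ hg

lemma tS_add (r : Bool) (a s : ℕ) : a + tS r s = tS r (a + s) := by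
  cases r <;> rfl

lemma tT_add (r : Bool) (a s : ℕ) : a + tT r s = tT r (a + s) := by
  cases r <;> rfl

lemma tS_add' (r : Bool) (a s : ℕ) : tS r a + s = tS r (a + s) := by
  cases r
  · exact Nat.add_right_comm a 5 s
  · exact Nat.add_right_comm a 9 s

lemma tT_add' (r : Bool) (a s : ℕ) : tT r a + s = tT r (a + s) := by
  cases r
  · exact Nat.add_right_comm a 1 s
  · exact Nat.add_right_comm a 2 s

/-- The differentials. -/
noncomputable def SS.D (S : SS) (r : Bool) : S.A →ₗ[F] S.A := Bool.rec S.D5 S.D9 r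

lemma SS.D_mem (S : SS) (r : Bool) {s T : ℕ} {x : S.A} (hx : x ∈ S.G s T) :
    S.D r x ∈ S.G (tS r s) (tT r T) := by
  cases r
  · exact S.D5_mem hx
  · exact S.D9_mem hx

/-- `D5 X + Y = 0`, or `D5 X = 0` and `D9 X + Y` is in the image of `D5`. -/
def SS.Rel (S : SS) (r : Bool) (s T : ℕ) (X Y : S.A) : Prop :=
  Bool.rec (S.D5 X + Y = 0) (S.D5 X = 0 ∧ ∃ c ∈ S.G (s + 4) (T + 1), S.D9 X + Y = S.D5 c) r

/-- The goals. -/
def SS.Goal (S : SS) (n : ℕ) : Prop :=
  if n < 4 then S.Out3 n else if n < 8 then S.Out (n - 4) else S.Out1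

lemma Orc.okc_iff {O : Orc} {s T : ℕ} :
    O.okc s T = true ↔ O.ok s T = true ∧ O.dim s T ≤ 16 ∧ s ≤ 127 := by
  rw [Orc.okc, band_iff, band_iff, Nat.ble_eq, Nat.ble_eq]

lemma Orc.length_ux (O : Orc) (s T v : ℕ) : (O.ux s T v).length ≤ O.dim s T := length_unp _ v

namespace CrdO

variable {O : Orc} {S : SS} (C : CrdO O S)

/-- The coordinate `l` of `D_r e_i`. -/
noncomputable def ent (r : Bool) (s T i l : ℕ) : F :=
  C.co (tS r s) (tT r T) (S.D r (C.e s T i)) l

/-- The values of the variables. -/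
noncomputable def val (n : ℕ) : F :=
  Nat.rec 1 (fun n _ => C.ent (decide (n / 256 % 2 = 1)) (n / 512 % 128) (n / 65536)
    (n / 16 % 16) (n % 16)) n

lemma val_zero : C.val 0 = 1 := rfl

lemma val_base (r : Bool) {s T i l : ℕ} (hs : s ≤ 127) (hi : i < 16) (hl : l < 16) :
    C.val (base r s T + 16 * i + l) = C.ent r s T i l := by
  obtain ⟨ρ, h1, h2, h3⟩ : ∃ ρ : ℕ, ρ < 2 ∧ decide (ρ = 1) = r ∧
      base r s T = 256 * (ρ + 2 * (s + 128 * T)) + 1 := by
    cases r
    · exact ⟨0, by norm_num, rfl, rfl⟩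
    · exact ⟨1, by norm_num, rfl, rfl⟩
  obtain ⟨n, hn⟩ : ∃ n, n = 256 * (ρ + 2 * (s + 128 * T)) + 16 * i + l := ⟨_, rfl⟩
  rw [show base r s T + 16 * i + l = n + 1 by omega]
  change C.ent (decide (n / 256 % 2 = 1)) (n / 512 % 128) (n / 65536) (n / 16 % 16) (n % 16) = _
  rw [show n / 256 % 2 = ρ by omega, show n / 512 % 128 = s by omega,
    show n / 65536 = T by omega, show n / 16 % 16 = i by omega, show n % 16 = l by omega, h2]

/-- The functional `X ↦ l (D_r X)`. -/
noncomputable def fnl (r : Bool) (s T : ℕ) (l : List ℕ) : S.A →ₗ[F] F :=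
  (lam l).comp ((C.co (tS r s) (tT r T)).comp (S.D r))

lemma fnl_apply (r : Bool) (s T : ℕ) (l : List ℕ) (X : S.A) :
    C.fnl r s T l X = lam l (C.co (tS r s) (tT r T) (S.D r X)) := rfl

lemma ev_rowv (r : Bool) {s T i : ℕ} {l : List ℕ} (hs : s ≤ 127) (hi : i < 16)
    (hl : l.length ≤ 16) : ev C.val (rowv (base r s T) l i) = C.fnl r s T l (C.e s T i) := by
  rw [rowv, ev_lamv, ev_nil, add_zero]
  exact lam_congr l fun k hk => C.val_base r hs hi (by omega)

/-- The vector with the coordinates `xs`. -/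
noncomputable def vecA (s T : ℕ) (xs : List ℕ) : ℕ → S.A :=
  List.rec (fun _ => 0) (fun d _ ih i => cs d • C.e s T i + ih (i + 1)) xs

noncomputable def vec (s T : ℕ) (xs : List ℕ) : S.A := C.vecA s T xs 0

lemma vecA_mem (s T : ℕ) (xs : List ℕ) (i : ℕ) : C.vecA s T xs i ∈ S.G s T := by
  induction xs generalizing i with
  | nil => exact zero_mem _
  | cons d xs ih => exact add_mem (Submodule.smul_mem _ _ (C.e_mem s T i)) (ih _)

lemma vec_mem (s T : ℕ) (xs : List ℕ) : C.vec s T xs ∈ S.G s T := C.vecA_mem s T xs 0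

lemma co_vecA {s T : ℕ} (h : O.ok s T = true) (xs : List ℕ) (i : ℕ)
    (hl : i + xs.length ≤ O.dim s T) : (∀ k < i, C.co s T (C.vecA s T xs i) k = 0) ∧
      Ap xs fun k => C.co s T (C.vecA s T xs i) (i + k) := by
  induction xs generalizing i with
  | nil =>
    have e : C.co s T (C.vecA s T [] i) = 0 := map_zero _
    rw [e]
    exact ⟨fun _ _ => rfl, ap_nil.2 rfl⟩
  | cons d xs ih =>
    rw [List.length_cons] at hl
    obtain ⟨h1, h2⟩ := ih (i + 1) (by omega)
    have e : ∀ k, C.co s T (C.vecA s T (d :: xs) i) k =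
        (if k = i then cs d else 0) + C.co s T (C.vecA s T xs (i + 1)) k := fun k => by
      change C.co s T (cs d • C.e s T i + C.vecA s T xs (i + 1)) k = _
      rw [map_add, map_smul, C.co_e h (by omega), Pi.add_apply, Pi.smul_apply, Pi.single_apply,
        smul_eq_mul, mul_ite, mul_one, mul_zero]
    refine ⟨fun k hk => by rw [e, if_neg (by omega), h1 k (by omega), add_zero],
      ap_cons.2 ⟨?_, ?_⟩⟩
    · rw [e, if_pos (add_zero i), h1 _ (by omega), add_zero]
      exact dg_cs d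
    · intro k
      have := h2 k
      dsimp only at this ⊢
      rw [e, if_neg (by omega), zero_add, show i + (k + 1) = i + 1 + k by omega]
      exact this

lemma ap_vec {s T : ℕ} (h : O.ok s T = true) {xs : List ℕ} (hl : xs.length ≤ O.dim s T) :
    Ap xs (C.co s T (C.vec s T xs)) := by
  have := (C.co_vecA h xs 0 (by omega)).2
  simp only [zero_add] at this
  exact this

/-- The vector with the code `x`. -/
noncomputable def vx (s T x : ℕ) : S.A := C.vec s T (O.ux s T x)

lemma vx_mem (s T x : ℕ) : C.vx s T x ∈ S.G s T := C.vec_mem _ _ _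

lemma ap_vx {s T : ℕ} (h : O.okc s T = true) (x : ℕ) :
    Ap (O.ux s T x) (C.co s T (C.vx s T x)) :=
  C.ap_vec (Orc.okc_iff.1 h).1 (O.length_ux s T x)

lemma eq_vx {s T z : ℕ} (h : O.okc s T = true) {X : S.A} (hX : X ∈ S.G s T) {xs : List ℕ}
    (ha : Ap xs (C.co s T X)) (e : veq xs (O.ux s T z) = true) : X = C.vx s T z := by
  rw [← sub_eq_zero]
  refine C.inj (Orc.okc_iff.1 h).1 (sub_mem hX (C.vx_mem s T z)) ?_
  rw [map_sub, veq_sound ha (C.ap_vx h z) e, sub_self]

lemma ev_dotE (φ : ℕ → Fm) (L : S.A →ₗ[F] F) (s T : ℕ) (xs : List ℕ) (i : ℕ)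
    (h : ∀ k < i + xs.length, ev C.val (φ k) = L (C.e s T k)) :
    ev C.val (dotE φ xs i) = L (C.vecA s T xs i) := by
  induction xs generalizing i with
  | nil => exact (map_zero L).symm
  | cons d xs ih =>
    rw [List.length_cons] at h
    have h1 := ih (i + 1) fun k hk => h k (by omega)
    change ev C.val (fd d (dotE φ xs (i + 1)) (fadd (φ i) (dotE φ xs (i + 1)))
      (fadd (fneg (φ i)) (dotE φ xs (i + 1))) (dotE φ xs (i + 1))) =
        L (cs d • C.e s T i + C.vecA s T xs (i + 1))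
    rw [map_add, map_smul, ← h1, ← h i (by omega), smul_eq_mul]
    rcases digit_cases d with rfl | rfl | rfl | ⟨n, rfl⟩ <;>
      simp only [cs, fd_zero, fd_one, fd_two, fd_big, ev_fadd, ev_fneg, zero_mul, zero_add,
        one_mul, neg_mul]

lemma ev_LE (r : Bool) {s T : ℕ} (h : O.okc s T = true) (x : ℕ) {l : List ℕ}
    (hl : l.length ≤ 16) :
    ev C.val (LE r s T (O.ux s T x) l) = C.fnl r s T l (C.vx s T x) := by
  obtain ⟨-, h1, h2⟩ := Orc.okc_iff.1 h
  have h3 := O.length_ux s T x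
  exact C.ev_dotE _ _ s T _ 0 fun k hk => C.ev_rowv r h2 (by omega) hl

/-- The sum of the words. -/
noncomputable def wd (ws : List (List ℕ × Mx)) : S.A :=
  List.rec 0 (fun p _ ih => ev C.val (dec p.1) • C.den p.2 + ih) ws

/-- All words have the given degree. -/
def Degs (O : Orc) (a u : ℕ) (ws : List (List ℕ × Mx)) : Prop :=
  ∀ p ∈ ws, O.dS p.2 = a ∧ O.dT p.2 = u

lemma wd_mem {a u : ℕ} {ws : List (List ℕ × Mx)} (h : Degs O a u ws) : C.wd ws ∈ S.G a u := by
  induction ws with
  | nil => exact zero_mem _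
  | cons p ws ih =>
    obtain ⟨rfl, rfl⟩ := h p List.mem_cons_self
    exact add_mem (Submodule.smul_mem _ _ (C.den_mem p.2))
      (ih fun q hq => h q (List.mem_cons_of_mem _ hq))

/-- The meaning of a fact. -/
def FH : Fact → Prop
  | .eqf f => ev C.val f = 0
  | .bad => False
  | .mrec _ r m ws => Degs O (tS r (O.dS m)) (tT r (O.dT m)) ws ∧
      S.Rel r (O.dS m) (O.dT m) (C.den m) (C.wd ws)
  | .perm s T x => C.vx s T x ∈ S.P s T
  | .cl s T t => ∀ y ∈ S.P s T, y ∈ S.B t s T
  | .ne r s T x l => C.fnl r s T (ul l) (C.vx s T x) ≠ 2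
  | .goal n => S.Goal n
  | .im s T v => ∃ c ∈ S.G s T, Ap (O.ux (s + 5) (T + 1) v) (C.co (s + 5) (T + 1) (S.D5 c))

/-- All facts of a list hold. -/
def All (l : List Fact) : Prop := ∀ f ∈ l, C.FH f

variable {C}

lemma all_nil : C.All [] := fun _ h => by cases h

lemma all_one {f : Fact} (h : C.FH f) : C.All [f] := fun _ hg => List.mem_singleton.1 hg ▸ h

lemma All.cons {f : Fact} {l : List Fact} (h : C.FH f) (hl : C.All l) : C.All (f :: l) :=
  List.forall_mem_cons.2 ⟨h, hl⟩

lemma all_guard {b : Bool} {l : List Fact} (h : b = true → C.All l) : C.All (guard b l) :=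
  fun f hf => h (mem_guard hf).1 f (mem_guard hf).2

lemma All.consO {l : List Fact} (hl : C.All l) {o : Option Fm} (h : Eo C.val o 0) :
    C.All (consO o l) := by
  cases o with
  | none => exact hl
  | some f => exact All.cons (f := .eqf f) (eo_some.1 h) hl

lemma All.has {l : List Fact} (hl : C.All l) {f : Fact} (h : hasF l f = true) : C.FH f :=
  hl f (hasF_sound h)

end CrdO

end Vale.Agent.P236E
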