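import Vale.Agent.P236E.Snd4
import Vale.Agent.P236E.Fin

/-!
# P236, block ENG: from a certificate to the final statement
-/

namespace Vale.Agent.P236E

open Vale.Agent.P236K Vale.Agent.P236H

/-- The final statement from the tables `τ₀`, extended tables `O` and a certificate. -/
theorem fin_of_imp {τ₀ : Tab} (R : Real τ₀) {O : Orc}
    (hO : ∀ S : SS, Crd τ₀ S → Nonempty (CrdO O S)) {s T x l s' T' x' l' : ℕ} {outs : List Fact}
    (h : O.Imp [.ne false s T x l, .ne true s' T' x' l'] outs) (h8 : .goal 8 ∈ outs)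
    (h2 : .goal 2 ∈ outs) (h7 : .goal 7 ∈ outs) : FIN 9 :=
  fin_of_eng R fun S C hH => (hO S C).elim fun C' => outs_of h h8 h2 h7 C' hH

end Vale.Agent.P236E
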