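import Vale.Agent.P236E.Sem

/-!
# P236, block ENG: soundness of the basic checks
-/

namespace Vale.Agent.P236E

lemma fap_neg {val : ℕ → F} (h0 : val 0 = 1) {v : List ℕ} {z y : ℕ → F} {P : FV} (hz : Ap v z)
    (hy : FAp val P y) : FAp val (.cons (.cons 0 true .nil) v P) (-z + y) :=
  ⟨z, y, hz, hy, by rw [ev_true, h0, ev_nil, add_zero, neg_one_smul]⟩

namespace CrdO

variable {O : Orc} {S : SS} (C : CrdO O S) {t : Tr} (ht : TrH C.val t)

include ht

lemma eo_LD (r : Bool) {s T : ℕ} {X : S.A} (hX : X ∈ S.G s T) {xs : List ℕ}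
    (ha : Ap xs (C.co s T X)) {l : List ℕ} (hl : l.length ≤ 16) :
    Eo C.val (O.LD t r s T xs l) (C.fnl r s T l X) := by
  rw [Orc.LD]
  cases h : O.okc s T
  · exact eo_none _ _
  · obtain ⟨h0, h1, h2⟩ := Orc.okc_iff.1 h
    have h3 := eo_dot ht (rowv (base r s T) l) (a := C.co s T X) xs 0
      (by simpa only [zero_add] using ha)
    simp only [zero_add] at h3
    have h4 : C.fnl r s T l X = ∑ i ∈ Finset.range xs.length,
        C.co s T X i * ev C.val (rowv (base r s T) l i) := by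
      conv_lhs => rw [C.expand h0 hX fun l hl => ha.ge hl, map_sum]
      refine Finset.sum_congr rfl fun i _ => ?_
      rw [map_smul, smul_eq_mul]
      by_cases hi : C.co s T X i = 0
      · rw [hi, zero_mul, zero_mul]
      · rw [C.ev_rowv r h2 (by have := C.lt_dim hi; omega) hl]
    rw [h4]
    exact h3

lemma chkD_sound {r : Bool} {s T : ℕ} {X Y : S.A} (hX : X ∈ S.G s T) {xs : List ℕ}
    (ha : Ap xs (C.co s T X)) (hY : Y ∈ S.G (tS r s) (tT r T)) {P : FV}
    (hP : FAp C.val P (C.co (tS r s) (tT r T) Y)) (h : O.chkD t r s T xs P = true) :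
    S.D r X + Y = 0 := by
  obtain ⟨h1, h2⟩ := band_iff.1 h
  obtain ⟨h3, h4, -⟩ := Orc.okc_iff.1 h1
  refine C.inj h3 (add_mem (S.D_mem r hX) hY) (funext fun l => ?_)
  by_cases hl : l < O.dim (tS r s) (tT r T)
  · have h5 := oisz_sound ht (eo_lamF ht (unit l) hP (C.eo_LD ht r hX ha (l := unit l)
      (by rw [length_unit]; omega))) (allN_sound h2 hl)
    rw [fnl_apply, lam_unit, lam_unit, add_comm] at h5
    rw [map_add]
    exact h5
  · exact C.co_ge _ (by omega)

lemma ker_sound {s T : ℕ} {X : S.A} (hX : X ∈ S.G s T) {xs : List ℕ}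
    (ha : Ap xs (C.co s T X)) (h : O.ker t s T xs = true) : S.D5 X = 0 :=
  (add_zero _).symm.trans (C.chkD_sound ht (r := false) hX ha (zero_mem _) (P := .nil)
    (map_zero _) h)

lemma ann_sound {s T : ℕ} {l : List ℕ} (hl : l.length ≤ 16) (h : O.ann t s T l = true) {c : S.A}
    (hc : c ∈ S.G s T) : C.fnl false s T l c = 0 := by
  obtain ⟨h1, h2⟩ := band_iff.1 h
  obtain ⟨h3, h4, h5⟩ := Orc.okc_iff.1 h1
  rw [C.expand h3 hc (n := O.dim s T) fun _ => C.co_ge c, map_sum]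
  refine Finset.sum_eq_zero fun i hi => ?_
  rw [Finset.mem_range] at hi
  rw [map_smul, ← C.ev_rowv false h5 (by omega) hl, isz_sound ht (allN_sound h2 hi), smul_zero]

lemma fap_wsum {a u s T : ℕ} {ws : List (List ℕ × Mx)} (hw : Degs O a u ws) {X : S.A}
    (hX : X ∈ S.G s T) {xs : List ℕ} (ha : Ap xs (C.co s T X)) {P : FV} {y : ℕ → F}
    (hP : FAp C.val P y) :
    FAp C.val (O.wsum t s T xs P ws) (C.co (a + s) (u + T) (S.mul (C.wd ws) X) + y) := by
  induction ws with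
  | nil =>
    change FAp C.val P (C.co _ _ (S.mul 0 X) + y)
    rwa [map_zero, LinearMap.zero_apply, map_zero, zero_add]
  | cons p ws ih =>
    obtain ⟨rfl, rfl⟩ := hw p List.mem_cons_self
    have h1 := fap_consF ht (dec p.1) (C.ap_act p.2 hX ha)
      (ih fun q hq => hw q (List.mem_cons_of_mem _ hq))
    change FAp C.val _ (C.co _ _ (S.mul (ev C.val (dec p.1) • C.den p.2 + C.wd ws) X) + y)
    rw [map_add, LinearMap.add_apply, map_add, map_smul, LinearMap.smul_apply, map_smul, add_assoc]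
    exact h1

lemma fap_imsum {fs : List Fact} (hf : C.All fs) (s T : ℕ) (us : List (List ℕ × ℕ)) :
    ∃ c ∈ S.G s T, FAp C.val (O.imsum t fs s T us) (C.co (s + 5) (T + 1) (S.D5 c)) := by
  induction us with
  | nil => exact ⟨0, zero_mem _, by rw [map_zero, map_zero]; rfl⟩
  | cons p us ih =>
    obtain ⟨c, hc, h1⟩ := ih
    change ∃ c ∈ S.G s T, FAp C.val (Bool.rec (O.imsum t fs s T us) (consF t (dec p.1)
      (O.ux (s + 5) (T + 1) p.2) (O.imsum t fs s T us)) (hasF fs (.im s T p.2))) _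
    cases h : hasF fs (.im s T p.2)
    · exact ⟨c, hc, h1⟩
    · obtain ⟨c', hc', h2⟩ := hf.has h
      refine ⟨ev C.val (dec p.1) • c' + c, add_mem (Submodule.smul_mem _ _ hc') hc, ?_⟩
      rw [map_add, map_add, map_smul, map_smul]
      exact fap_consF ht (dec p.1) h2 h1

lemma chkI_sound {fs : List Fact} (hf : C.All fs) {s T x : ℕ} {v : List ℕ}
    {us : List (List ℕ × ℕ)} (h : O.chkI t fs s T v x us = true) {X : S.A}
    (hX : X ∈ S.G (s + 5) (T + 1)) (ha : Ap v (C.co (s + 5) (T + 1) X)) :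
    ∃ c ∈ S.G s T, X = S.D5 c := by
  obtain ⟨h1, h2⟩ := band_iff.1 h
  obtain ⟨c, hc, h4⟩ := C.fap_imsum ht hf s T us
  have h5 := fap_neg C.val_zero ha h4
  rw [← map_neg, ← map_add] at h5
  have h6 : S.D5 _ + _ = 0 := C.chkD_sound ht (r := false) (C.vx_mem s T x) (C.ap_vx h1 x)
    (add_mem (neg_mem hX) (S.D5_mem hc)) h5 h2
  refine ⟨C.vx s T x + c, add_mem (C.vx_mem s T x) hc, ?_⟩
  rw [map_add, ← sub_eq_zero, ← neg_eq_zero, ← h6]
  abel

lemma chkM_sound {fs : List Fact} (hf : C.All fs) {r : Bool} {s T : ℕ} {X Y : S.A}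
    (hX : X ∈ S.G s T) {xs : List ℕ}
    (ha : Ap xs (C.co s T X)) (hY : Y ∈ S.G (tS r s) (tT r T)) {P : FV → FV}
    (hP : ∀ P₀ y, FAp C.val P₀ y → FAp C.val (P P₀) (C.co (tS r s) (tT r T) Y + y))
    {us : List (List ℕ × ℕ)} (h : O.chkM t fs r s T xs P us = true) : S.Rel r s T X Y := by
  cases r
  · exact C.chkD_sound ht (r := false) hX ha hY ((add_zero (C.co _ _ Y)) ▸ hP .nil 0 rfl) h
  · obtain ⟨h1, h3⟩ := band_iff.1 h
    obtain ⟨c, hc, h4⟩ := C.fap_imsum ht hf (s + 4) (T + 1) us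
    have h5 := hP _ _ h4
    have h6 := C.chkD_sound ht (r := true) hX ha (add_mem hY (S.D5_mem hc))
      (by rw [map_add]; exact h5) h3
    refine ⟨C.ker_sound ht hX ha h1, -c, neg_mem hc, ?_⟩
    rw [map_neg, eq_neg_iff_add_eq_zero, add_assoc]
    exact h6

lemma fap_dsum (r : Bool) {s T : ℕ} (h : O.okc s T = true) (x : ℕ) {row : ℕ → List ℕ}
    {z : ℕ → ℕ → F} {P : FV} {y : ℕ → F} (hP : FAp C.val P y) (n : ℕ) (hn : n ≤ 16)
    (hz : ∀ j < n, Ap (row j) (z j)) :
    FAp C.val (Orc.dsum t r s T (O.ux s T x) row P n)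
      (∑ j ∈ Finset.range n, C.co (tS r s) (tT r T) (S.D r (C.vx s T x)) j • z j + y) := by
  induction n with
  | zero => rwa [Finset.sum_range_zero, zero_add]
  | succ n ih =>
    have h1 := fap_consF ht (LE r s T (O.ux s T x) (unit n)) (hz n (by omega))
      (ih (by omega) fun j hj => hz j (by omega))
    rw [C.ev_LE r h x (by rw [length_unit]; omega), fnl_apply, lam_unit] at h1
    rw [Finset.sum_range_succ_comm, add_assoc]
    exact h1

lemma all_eqs (r : Bool) {s T : ℕ} {X : S.A} (hX : X ∈ S.G s T) {xs : List ℕ}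
    (ha : Ap xs (C.co s T X)) {P : FV} {y : ℕ → F} (hP : FAp C.val P y) {acc : List Fact}
    (hacc : C.All acc) {ls : List (List ℕ)}
    (h : ∀ l ∈ ls, l.length ≤ 16 ∧ lam l y + C.fnl r s T l X = 0) :
    C.All (O.eqs t r s T xs P acc ls) := by
  induction ls with
  | nil => exact hacc
  | cons l ls ih =>
    obtain ⟨h1, h2⟩ := h l List.mem_cons_self
    exact (ih fun q hq => h q (List.mem_cons_of_mem _ hq)).consO
      (h2 ▸ eo_lamF ht l hP (C.eo_LD ht r hX ha h1))

omit ht in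
lemma ap_e {s T j : ℕ} (h : O.ok s T = true) (hj : j < O.dim s T) :
    Ap (unit j) (C.co s T (C.e s T j)) := by
  rw [C.co_e h hj]
  exact P236E.ap_unit j

lemma lam_rel {r : Bool} {s T : ℕ} {Z : S.A} {ls : List (List ℕ)}
    (hl : ∀ l ∈ ls, l.length ≤ 16) (ha : imp r (allL (O.ann t (s + 4) (T + 1)) ls) = true)
    (h : Bool.rec (Z = 0) (∃ c ∈ S.G (s + 4) (T + 1), Z = S.D5 c) r) {l : List ℕ} (hm : l ∈ ls) :
    lam l (C.co (tS r s) (tT r T) Z) = 0 := by
  cases r
  · rw [show Z = 0 from h, map_zero, map_zero]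
  · obtain ⟨c, hc, rfl⟩ := h
    exact C.ann_sound ht (hl l hm) (allL_sound ha hm) hc

lemma all_jobs (r : Bool) {op : ℕ → ℕ → List ℕ → List ℕ} {Q : List ℕ → FV} {a u s T : ℕ}
    (L : S.A →ₗ[F] S.A) (q : S.A → S.A)
    (hL : ∀ {s T X}, X ∈ S.G s T → L X ∈ S.G (a + s) (u + T))
    (hop : ∀ {s T X xs}, X ∈ S.G s T → Ap xs (C.co s T X) →
      Ap (op s T xs) (C.co (a + s) (u + T) (L X)))
    (hQ : ∀ {X xs}, X ∈ S.G s T → Ap xs (C.co s T X) →
      FAp C.val (Q xs) (C.co (tS r (a + s)) (tT r (u + T)) (q X)))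
    (H : ∀ X ∈ S.G s T, (r = true → S.D5 X = 0) →
      Bool.rec (-((-1 : F) ^ a • L (S.D r X)) + q X + S.D r (L X) = 0)
        (∃ c ∈ S.G (a + s + 4) (u + T + 1),
          -((-1 : F) ^ a • L (S.D r X)) + q X + S.D r (L X) = S.D5 c) r)
    {ls : List (List ℕ)} (hl : ∀ l ∈ ls, l.length ≤ 16) (xs : List ℕ) :
    C.All (O.jobs t r op Q a u s T ls xs) := by
  refine all_guard fun h => ?_
  obtain ⟨h1, h⟩ := band_iff.1 h
  obtain ⟨h2, h3⟩ := band_iff.1 h
  obtain ⟨h4, h5, -⟩ := Orc.okc_iff.1 h2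
  induction xs with
  | nil => exact all_nil
  | cons x xs ih =>
    change C.All (O.job t r op Q a s T _ _ _ _ ls _ (O.ux s T x))
    rw [Orc.job]
    cases hk : imp r (O.ker t s T (O.ux s T x))
    · exact ih
    have hX := C.vx_mem s T x
    have ha := C.ap_vx h1 x
    have h6 := C.fap_dsum ht r h1 x (hQ hX ha) _ h5 fun j hj =>
      (hop (C.e_mem _ _ j) (C.ap_e h4 hj)).vsg a
    refine C.all_eqs ht r (hL hX) (hop hX ha) h6 ih fun l hm => ⟨hl l hm, ?_⟩
    have h7 := C.lam_rel ht (s := a + s) (T := u + T) hl h3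
      (H _ hX fun e => C.ker_sound ht hX ha (by rwa [e] at hk)) hm
    rw [← h7, map_add (C.co _ _), map_add (C.co _ _), map_add (lam l) _ (C.co _ _ (S.D r _)),
      fnl_apply, map_neg, map_smul]
    congr 3
    conv_rhs => rw [C.expand h4 (S.D_mem r hX) (n := O.dim _ _) fun _ => C.co_ge _, map_sum,
      map_sum, Finset.smul_sum, ← Finset.sum_neg_distrib]
    refine Finset.sum_congr rfl fun j _ => ?_
    rw [map_smul, map_smul, smul_neg, smul_comm, tS_add, tT_add]

lemma eo_ddEq (r r' : Bool) {s T : ℕ} (h : O.okc s T = true) (h' : tS r s ≤ 127) (x : ℕ)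
    {l : List ℕ} (hl : l.length ≤ 16) (n : ℕ) (hn : n ≤ 16) :
    Eo C.val (Orc.ddEq t r s T (base r' (tS r s) (tT r T)) (O.ux s T x) l n)
      (∑ j ∈ Finset.range n, C.co (tS r s) (tT r T) (S.D r (C.vx s T x)) j *
        C.fnl r' (tS r s) (tT r T) l (C.e (tS r s) (tT r T) j)) := by
  induction n with
  | zero => exact eo_some.2 rfl
  | succ n ih =>
    have h1 := eo_prodF C.val_zero ht (LE r s T (O.ux s T x) (unit n))
      (rowv (base r' (tS r s) (tT r T)) l n) (ih (by omega))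
    rw [C.ev_LE r h x (by rw [length_unit]; omega), fnl_apply, lam_unit,
      C.ev_rowv r' h' (by omega) hl] at h1
    rw [Finset.sum_range_succ_comm]
    exact h1

omit ht in
lemma all_rec {acc : List Fact} (h : C.All acc) (g : List ℕ → Option Fm) (ls : List (List ℕ))
    (key : ∀ l ∈ ls, Eo C.val (g l) 0) :
    C.All (List.rec acc (fun l _ ih => consO (g l) ih) ls) := by
  induction ls with
  | nil => exact h
  | cons l ls ih' =>
    exact (ih' fun q hq => key q (List.mem_cons_of_mem _ hq)).consO (key l List.mem_cons_self)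

lemma all_ddJobs (r r' : Bool) (s T : ℕ) {ls : List (List ℕ)} (hl : ∀ l ∈ ls, l.length ≤ 16)
    (xs : List ℕ) : C.All (O.ddJobs t r r' s T ls xs) := by
  refine all_guard fun h => ?_
  obtain ⟨h1, h⟩ := band_iff.1 h
  obtain ⟨h2, h3⟩ := band_iff.1 h
  obtain ⟨h4, h5, h6⟩ := Orc.okc_iff.1 h2
  induction xs with
  | nil => exact all_nil
  | cons x xs ih =>
    change C.All (O.ddJob t r s T _ _ ls _ (O.ux s T x))
    rw [Orc.ddJob]
    cases hk : imp r (O.ker t s T (O.ux s T x))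
    · exact ih
    have hX := C.vx_mem s T x
    have h7 : Bool.rec (S.D r' (S.D r (C.vx s T x)) = 0) (∃ c ∈ S.G (tS r s + 4) (tT r T + 1),
        S.D r' (S.D r (C.vx s T x)) = S.D5 c) r' := by
      cases r <;> cases r'
      · exact S.D5_D5 hX
      · exact S.D9_D5 hX
      · exact S.D5_D9 hX (C.ker_sound ht hX (C.ap_vx h1 x) hk)
      · exact S.D9_D9 hX (C.ker_sound ht hX (C.ap_vx h1 x) hk)
    have key : ∀ l ∈ ls, Eo C.val (Orc.ddEq t r s T (base r' (tS r s) (tT r T)) (O.ux s T x) l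
        (O.dim (tS r s) (tT r T))) 0 := fun l hm => by
      have h8 := C.eo_ddEq ht r r' h1 h6 x (hl l hm) _ h5
      have h9 := C.lam_rel ht hl h3 h7 hm
      rw [← fnl_apply, C.expand h4 (S.D_mem r hX) (n := O.dim _ _) fun _ => C.co_ge _,
        map_sum] at h9
      simp only [map_smul, smul_eq_mul] at h9
      rwa [h9] at h8
    exact C.all_rec ih _ ls key

end CrdO

end Vale.Agent.P236E
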