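import Vale.Agent.P236E.Snd1

/-!
# P236, block ENG: spanning sets of cycles, closed cells
-/

namespace Vale.Agent.P236E

namespace CrdO

variable {O : Orc} {S : SS} (C : CrdO O S)

/-- The elements which are described by a member of `vs`. -/
def Ds (s T : ℕ) (vs : List (List ℕ)) : Set S.A :=
  {X | X ∈ S.G s T ∧ ∃ v ∈ vs, Ap v (C.co s T X)}

/-- The members of `vs` describe a spanning set of `K`. -/
def Inv (s T : ℕ) (K : Submodule F S.A) (vs : List (List ℕ)) : Prop :=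
  (∀ v ∈ vs, ∃ X ∈ S.G s T, Ap v (C.co s T X)) ∧ K ≤ Submodule.span F (C.Ds s T vs)

lemma mem_units {n : ℕ} {v : List ℕ} : v ∈ units n ↔ ∃ k < n, v = unit k := by
  induction n with
  | zero => exact ⟨fun h => (by cases h), fun ⟨_, h, _⟩ => by omega⟩
  | succ n ih =>
    refine List.mem_cons.trans ⟨?_, ?_⟩
    · rintro (rfl | h)
      · exact ⟨n, by omega, rfl⟩
      · obtain ⟨k, h1, h2⟩ := ih.1 h
        exact ⟨k, by omega, h2⟩
    · rintro ⟨k, h1, rfl⟩
      rcases Nat.lt_succ_iff_lt_or_eq.1 h1 with h | rfl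
      · exact .inr (ih.2 ⟨k, h, rfl⟩)
      · exact .inl rfl

lemma inv_units {s T : ℕ} (h : O.ok s T = true) {K : Submodule F S.A} (hK : K ≤ S.G s T) :
    C.Inv s T K (units (O.dim s T)) := by
  refine ⟨fun v hv => ?_, fun X hX => ?_⟩
  · obtain ⟨k, h1, rfl⟩ := mem_units.1 hv
    exact ⟨_, C.e_mem s T k, C.ap_e h h1⟩
  · rw [C.expand h (hK hX) (n := O.dim s T) fun _ => C.co_ge X]
    refine Submodule.sum_mem _ fun k hk => Submodule.smul_mem _ _ (Submodule.subset_span ?_)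
    rw [Finset.mem_range] at hk
    exact ⟨C.e_mem s T k, _, mem_units.2 ⟨k, hk, rfl⟩, C.ap_e h hk⟩

lemma mem_cutL {f : List ℕ → ℕ} {v₀ : List ℕ} {d₀ : ℕ} {vs : List (List ℕ)} {w : List ℕ}
    (h : w ∈ cutL f v₀ d₀ vs) : ∃ v ∈ vs, w = vadd v (vsc (dneg (dmul (f v) d₀)) v₀) := by
  induction vs with
  | nil => cases h
  | cons v vs ih =>
    change w ∈ keep _ (cutL f v₀ d₀ vs) at h
    rw [keep] at h
    have key : w ∈ cutL f v₀ d₀ vs → ∃ v' ∈ v :: vs,
        w = vadd v' (vsc (dneg (dmul (f v') d₀)) v₀) := fun h => by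
      obtain ⟨v', h1, h2⟩ := ih h
      exact ⟨v', List.mem_cons_of_mem _ h1, h2⟩
    cases hz : vz (vadd v (vsc (dneg (dmul (f v) d₀)) v₀)) <;> rw [hz] at h
    · rcases List.mem_cons.1 h with h | h
      · exact ⟨v, List.mem_cons_self, h⟩
      · exact key h
    · exact key h

lemma cutL_mem (f : List ℕ → ℕ) (v₀ : List ℕ) (d₀ : ℕ) {vs : List (List ℕ)} {v : List ℕ}
    (h : v ∈ vs) : vz (vadd v (vsc (dneg (dmul (f v) d₀)) v₀)) = true ∨
      vadd v (vsc (dneg (dmul (f v) d₀)) v₀) ∈ cutL f v₀ d₀ vs := by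
  induction vs with
  | nil => cases h
  | cons v' vs ih =>
    change _ ∨ _ ∈ keep _ (cutL f v₀ d₀ vs)
    rw [keep]
    rcases List.mem_cons.1 h with rfl | h
    · cases hz : vz (vadd v (vsc (dneg (dmul (f v) d₀)) v₀))
      · exact .inr List.mem_cons_self
      · exact .inl rfl
    · refine (ih h).imp_right fun h1 => ?_
      cases vz (vadd v' (vsc (dneg (dmul (f v') d₀)) v₀))
      · exact List.mem_cons_of_mem _ h1
      · exact h1

lemma cut1_cases (f : List ℕ → ℕ) (vs : List (List ℕ)) : cut1 f vs = vs ∨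
    ∃ v₀ ∈ vs, ∃ d₀, f v₀ = d₀ ∧ (d₀ = 1 ∨ d₀ = 2) ∧ cut1 f vs = cutL f v₀ d₀ vs := by
  have key : ∀ l : List (List ℕ), (List.rec vs (fun v _ ih =>
      fd (f v) ih (cutL f v 1 vs) (cutL f v 2 vs) ih) l : List (List ℕ)) = vs ∨
      ∃ v₀ ∈ l, ∃ d₀, f v₀ = d₀ ∧ (d₀ = 1 ∨ d₀ = 2) ∧ (List.rec vs (fun v _ ih =>
        fd (f v) ih (cutL f v 1 vs) (cutL f v 2 vs) ih) l : List (List ℕ)) = cutL f v₀ d₀ vs := by
    intro l
    induction l with
    | nil => exact .inl rfl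
    | cons v l ih =>
      dsimp only
      rcases digit_cases (f v) with e | e | e | ⟨n, e⟩ <;> rw [e]
      · exact ih.imp_right fun ⟨v₀, h1, h2⟩ => ⟨v₀, List.mem_cons_of_mem _ h1, h2⟩
      · exact .inr ⟨v, List.mem_cons_self, 1, e, .inl rfl, rfl⟩
      · exact .inr ⟨v, List.mem_cons_self, 2, e, .inr rfl, rfl⟩
      · exact ih.imp_right fun ⟨v₀, h1, h2⟩ => ⟨v₀, List.mem_cons_of_mem _ h1, h2⟩
  exact key vs

lemma Inv.cut1 {s T : ℕ} (h : O.ok s T = true) {K : Submodule F S.A} {vs : List (List ℕ)}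
    (H : C.Inv s T K vs) {f : List ℕ → ℕ} (φ : S.A →ₗ[F] F) (hK : ∀ X ∈ K, φ X = 0)
    (hf : ∀ X ∈ S.G s T, ∀ v, Ap v (C.co s T X) → Dg (f v) (φ X)) :
    C.Inv s T K (cut1 f vs) := by
  rcases cut1_cases f vs with e | ⟨v₀, h0, d₀, e0, hd, e⟩ <;> rw [e]
  · exact H
  obtain ⟨X₀, hX₀, ha₀⟩ := H.1 v₀ h0
  let π : S.A →ₗ[F] S.A := LinearMap.id - (LinearMap.toSpanSingleton F _ ((d₀ : F) • X₀)).comp φ
  have hπ : ∀ X, π X = X + -(φ X * d₀) • X₀ := fun X => by
    change X - φ X • (d₀ : F) • X₀ = _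
    rw [smul_smul, sub_eq_add_neg, neg_smul]
  have key : ∀ X ∈ S.G s T, ∀ v, Ap v (C.co s T X) → π X ∈ S.G s T ∧
      Ap (vadd v (vsc (dneg (dmul (f v) d₀)) v₀)) (C.co s T (π X)) := fun X hX v hv => by
    rw [hπ, map_add, map_smul]
    exact ⟨add_mem hX (Submodule.smul_mem _ _ hX₀),
      hv.add (ap_vsc ((hf X hX v hv).mul fun _ => rfl).neg fun _ => ha₀)⟩
  refine ⟨fun w hw => ?_, fun y hy => ?_⟩
  · obtain ⟨v, h1, rfl⟩ := mem_cutL hw
    obtain ⟨X, hX, ha⟩ := H.1 v h1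
    exact ⟨_, key X hX v ha⟩
  · have h1 : π y = y := by rw [hπ, hK y hy, zero_mul, neg_zero, zero_smul, add_zero]
    rw [← h1]
    refine Submodule.span_le.2 (?_ : _ ⊆ ((Submodule.span F _).comap π : Set S.A)) (H.2 hy)
    rintro X ⟨hX, v, hv, ha⟩
    obtain ⟨h2, h3⟩ := key X hX v ha
    rcases cutL_mem f v₀ d₀ hv with h4 | h4
    · change π X ∈ Submodule.span F _
      rw [C.inj h h2 (vz_sound h3 h4)]
      exact zero_mem _
    · exact Submodule.subset_span ⟨h2, _, h4, h3⟩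

variable {t : Tr} (ht : TrH C.val t)

include ht

lemma inv_cov {a9 : Bool} {s T : ℕ} (h : O.ok s T = true) {K : Submodule F S.A}
    (hK : K ≤ S.G s T) (h5 : ∀ X ∈ K, S.D5 X = 0)
    (h9 : a9 = true → ∀ X ∈ K, ∃ c ∈ S.G (s + 4) (T + 1), S.D9 X = S.D5 c) (cs : List ℕ) :
    C.Inv s T K (O.cov t a9 s T cs) := by
  have hf : ∀ (r : Bool) (c : ℕ), ∀ X ∈ S.G s T, ∀ v, Ap v (C.co s T X) →
      Dg (O.cutf t r s T (ul c) v) (C.fnl r s T (ul c) X) := fun r c X hX v hv =>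
    dg_odig C.val_zero ht (C.eo_LD ht r hX hv (length_ul c))
  have key : ∀ vs, C.Inv s T K vs → C.Inv s T K (O.cuts t a9 s T cs vs) := by
    induction cs with
    | nil => exact fun _ H => H
    | cons c cs ih =>
      intro vs H
      change C.Inv s T K (Nat.rec (motive := fun _ => List (List ℕ))
        (O.cuts t a9 s T cs (cut1 (O.cutf t false s T (ul (c / 2))) vs))
        (fun _ _ => Bool.rec (O.cuts t a9 s T cs vs)
          (O.cuts t a9 s T cs (cut1 (O.cutf t true s T (ul (c / 2))) vs))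
          (band a9 (O.ann t (s + 4) (T + 1) (ul (c / 2))))) (c % 2))
      cases c % 2 with
      | zero =>
        refine ih _ (H.cut1 C h _ (fun X hX => ?_) (hf false _))
        rw [fnl_apply, show S.D false X = 0 from h5 X hX, map_zero, map_zero]
      | succ n =>
        cases hb : band a9 (O.ann t (s + 4) (T + 1) (ul (c / 2)))
        · exact ih _ H
        · refine ih _ (H.cut1 C h _ (fun X hX => ?_) (hf true _))
          obtain ⟨y, hy, e⟩ := h9 (band_iff.1 hb).1 X hX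
          rw [fnl_apply, show S.D true X = S.D5 y from e]
          exact C.ann_sound ht (length_ul _) (band_iff.1 hb).2 hy
  exact key _ (C.inv_units h hK)

lemma inv_covP {s T : ℕ} (h : O.ok s T = true) (cs : List ℕ) :
    C.Inv s T (S.P s T) (O.cov t true s T cs) :=
  C.inv_cov ht h (fun _ => S.P_le) (fun _ => S.P_D5) (fun _ _ => S.P_D9) cs

lemma bdOK_sound {fs : List Fact} (hf : C.All fs) {s T q : ℕ} {v : List ℕ}
    {b : Bool × ℕ × List (List ℕ × ℕ)} (h : O.bdOK t fs s T q v b = true) {X : S.A}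
    (hX : X ∈ S.G s T) (ha : Ap v (C.co s T X)) : X ∈ S.B q s T := by
  obtain ⟨r, x, us⟩ := b
  rw [Orc.bdOK, fn_eq, fn_eq] at h
  generalize Nat.sub s _ = s₀ at h
  generalize Nat.sub T _ = T₀ at h
  simp only [band_iff, Nat.beq_eq, Nat.ble_eq] at h
  obtain ⟨rfl, rfl, h1, h2⟩ := h
  cases r
  · obtain ⟨c, hc, e⟩ := C.chkI_sound ht hf h2 hX ha
    rw [e]
    exact S.B_mono h1 (S.B_D5 hc)
  · obtain ⟨h2, h3⟩ := band_iff.1 h2
    have hx := C.vx_mem s₀ T₀ x
    obtain ⟨h5, c, hc, e⟩ := C.chkM_sound ht hf hx (C.ap_vx h2 x) (neg_mem hX) (fun P₀ y hy => by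
      rw [map_neg]
      exact fap_neg C.val_zero ha hy) h3
    have e' : X = S.D9 (C.vx s₀ T₀ x) + S.D5 (-c) := by
      rw [map_neg, ← e, neg_add_rev, neg_neg, add_left_comm, add_neg_cancel, add_zero]
    rw [e']
    exact S.B_add (S.B_mono h1 (S.B_D9 hx h5))
      (S.B_mono (show q ≤ s₀ + 4 by omega) (S.B_D5 (neg_mem hc)))

lemma allBd_sound {fs : List Fact} (hf : C.All fs) {s T q : ℕ} {vs : List (List ℕ)}
    {bs : List (Bool × ℕ × List (List ℕ × ℕ))} (h : O.allBd t fs s T q vs bs = true) {X : S.A}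
    (hX : X ∈ C.Ds s T vs) : X ∈ S.B q s T := by
  obtain ⟨hX, v, hv, ha⟩ := hX
  induction vs generalizing bs with
  | nil => cases hv
  | cons v' vs ih =>
    cases bs with
    | nil => cases h
    | cons b bs =>
      obtain ⟨h1, h2⟩ := band_iff.1 h
      rcases List.mem_cons.1 hv with rfl | hv
      · exact C.bdOK_sound ht hf h1 hX ha
      · exact ih h2 hv

omit ht

variable (hH : S.High) {fs : List Fact} (hf : C.All fs)

include hH

omit C in
lemma high_sound {s T q : ℕ} (h1 : 2 * T + 84 ≤ 9 * s) (h2 : q + 13 ≤ s) :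
    ∀ y ∈ S.P s T, y ∈ S.B q s T :=
  fun y hy => S.B_mono (by omega) (hH s T (by omega) y hy)

omit C hH in
lemma high_iff {s T q : ℕ} : high s T q = true ↔ 2 * T + 84 ≤ 9 * s ∧ q + 13 ≤ s := by
  rw [high, band_iff, Nat.ble_eq, Nat.ble_eq]
  rfl

include hf

lemma clOK_sound {s T q : ℕ} (h : clOK fs s T q = true) : ∀ y ∈ S.P s T, y ∈ S.B q s T := by
  rcases bor_iff.1 h with h | h
  · rw [band_iff, Nat.ble_eq, Nat.ble_eq] at h
    have h1 : 2 * T + 2 ≤ 3 * s := h.1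
    intro y hy
    rw [S.van (by omega) (S.P_le hy)]
    exact S.B_zero h.2
  rcases bor_iff.1 h with h | h
  · exact high_sound hH (high_iff.1 h).1 (high_iff.1 h).2
  · obtain ⟨f, h1, h2⟩ := anyL_sound h
    cases f with
    | cl s' T' q' =>
      change band (Nat.beq s s') (band (Nat.beq T T') (Nat.ble q q')) = true at h2
      simp only [band_iff, Nat.beq_eq, Nat.ble_eq] at h2
      obtain ⟨rfl, rfl, h3⟩ := h2
      exact fun y hy => S.B_mono h3 (hf _ h1 y hy)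
    | _ => cases h2

lemma clRange_sound {s T q k₀ : ℕ} (h : clRange fs s T q k₀ = true) (k : ℕ) :
    ∀ y ∈ S.P (s + 4 * k) (T + k), y ∈ S.B q (s + 4 * k) (T + k) := by
  obtain ⟨h1, h2⟩ := band_iff.1 h
  by_cases hk : k < k₀
  · exact C.clOK_sound hH hf (allN_sound h1 hk)
  · obtain ⟨h3, h4⟩ : 2 * (T + k₀) + 84 ≤ 9 * (s + 4 * k₀) ∧ q + 13 ≤ s + 4 * k₀ := high_iff.1 h2
    exact high_sound hH (by omega) (by omega)

end CrdO

end Vale.Agent.P236E
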