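import Vale.Agent.P236E.Snd2

/-!
# P236, block ENG: soundness of the rules
-/

namespace Vale.Agent.P236E

namespace CrdO

variable {O : Orc} {S : SS} (C : CrdO O S)

lemma isDeg_iff {a u : ℕ} {m : Mx} : O.isDeg a u m = true ↔ O.dS m = a ∧ O.dT m = u := by
  rw [Orc.isDeg, band_iff, Nat.beq_eq, Nat.beq_eq]

lemma line_sound {s T : ℕ} {m : Mx} (h : O.line s T m = true) {y : S.A} (hy : y ∈ S.G s T)
    (h0 : y ≠ 0) : O.dS m = s ∧ O.dT m = T ∧ ∃ c : F, C.den m = c • y := by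
  simp only [Orc.line, band_iff, isDeg_iff, Nat.beq_eq] at h
  obtain ⟨⟨rfl, rfl⟩, h1, h2⟩ := h
  refine ⟨rfl, rfl, ?_⟩
  have e : ∀ x ∈ S.G (O.dS m) (O.dT m), x = C.co (O.dS m) (O.dT m) x 0 • C.e _ _ 0 :=
    fun x hx => by
      have := C.expand h1 hx (n := 1) fun _ hl => C.co_ge x (by omega)
      rwa [Finset.sum_range_one] at this
  have e1 := e _ (C.den_mem m)
  have e2 := e y hy
  generalize C.co _ _ (C.den m) 0 = a at e1
  generalize C.co _ _ y 0 = b at e2
  have hb : b ≠ 0 := by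
    rintro rfl
    exact h0 (e2.trans (zero_smul _ _))
  have hbb : ∀ b : F, b ≠ 0 → b * b = 1 := by decide
  exact ⟨a * b, by rw [e1, e2, smul_smul, mul_assoc, hbb b hb, mul_one]⟩

lemma isLd_sound {j x : ℕ} (h : O.isLd j (3 ^ (j + 1)) x = true) :
    j ≤ 3 ∧ O.okc 1 (3 ^ (j + 1)) = true ∧ S.β (C.vx 1 (3 ^ (j + 1)) x) ∈ S.Ld j := by
  simp only [Orc.isLd, band_iff, Nat.ble_eq] at h
  obtain ⟨h1, h2, h3⟩ := h
  have hx := C.vx_mem 1 (3 ^ (j + 1)) x
  have h4 := (dg_ddot (unit (O.lead j)) (C.ap_bact hx (C.ap_vx h2 x))).ne_zero h3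
  rw [lam_unit] at h4
  exact ⟨h1, h2, C.lead j h1 _ (S.β_mem hx) h4⟩

variable {t : Tr} (ht : TrH C.val t) (hH : S.High) {fs : List Fact} (hf : C.All fs)

include ht hf in
lemma all_oMrec (id : ℕ) (r : Bool) (m : Mx) (ws : List (List ℕ × Mx))
    (us : List (List ℕ × ℕ)) : C.All (O.oMrec t fs id r m ws us) := by
  refine all_guard fun h => all_one ?_
  obtain ⟨h1, h2⟩ := band_iff.1 h
  have hw : Degs O (tS r (O.dS m)) (tT r (O.dT m)) ws := fun p hp => isDeg_iff.1 (allL_sound h1 hp)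
  refine ⟨hw, C.chkM_sound ht hf (C.den_mem m) (C.ap_unit m) (C.wd_mem hw) (fun P₀ y hy => ?_) h2⟩
  have h3 := C.fap_wsum ht hw S.one_mem (xs := [1]) (C.ap_unit .one) hy
  rwa [S.mul_one (C.wd_mem hw)] at h3

include hf in
lemma all_useRec (id : ℕ) {K : Bool → Mx → List (List ℕ × Mx) → List Fact}
    (H : ∀ r m ws, C.FH (.mrec id r m ws) → C.All (K r m ws)) : C.All (useRec id K fs) := by
  induction fs with
  | nil => exact all_nil
  | cons f fs ih =>
    have h1 := ih fun g hg => hf g (List.mem_cons_of_mem _ hg)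
    cases f with
    | mrec id' r m ws =>
      change C.All (Bool.rec (useRec id K fs) (K r m ws) (Nat.beq id id'))
      cases Nat.beq id id'
      · exact h1
      · exact H r m ws (hf (.mrec id' r m ws) List.mem_cons_self)
    | _ => exact h1

include ht hf in
lemma all_oLeib (id s T : ℕ) (xs ls : List ℕ) : C.All (O.oLeib t fs id s T xs ls) := by
  refine C.all_useRec hf id fun r m ws ⟨hw, hr⟩ => ?_
  have hm := C.den_mem m
  refine C.all_jobs ht r (S.mul (C.den m)) (S.mul (C.wd ws)) (S.mul_mem hm)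
    (fun hX ha => C.ap_act m hX ha) (fun hX ha => ?_) (fun X hX h5 => ?_) (fun _ => length_mapL_ul) xs
  · have h1 := C.fap_wsum ht hw hX ha (P := .nil) rfl
    rwa [add_zero, tS_add', tT_add'] at h1
  · cases r
    · change -(_ • S.mul _ (S.D5 X)) + _ + S.D5 _ = 0
      rw [S.D5_mul hm hX, eq_neg_of_add_eq_zero_left hr, map_neg, LinearMap.neg_apply]
      abel
    · obtain ⟨h1, c, hc, e⟩ := hr
      obtain ⟨c', hc', e'⟩ := S.D9_mul hm hX h1 (h5 rfl)
      have h2 := S.mul_mem hc hX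
      rw [add_right_comm _ 4, add_right_comm _ 1] at h2
      refine ⟨S.mul c X + c', add_mem h2 hc', ?_⟩
      change -(_ • S.mul _ (S.D9 X)) + _ + S.D9 _ = _
      rw [e', map_add, S.D5_mul hc hX, h5 rfl, map_zero, smul_zero, add_zero, ← e, map_add,
        LinearMap.add_apply]
      abel

include ht in
lemma all_oBok (r : Bool) (s T : ℕ) (xs ls : List ℕ) : C.All (O.oBok t r s T xs ls) := by
  refine C.all_jobs ht r (Q := fun _ => .nil) S.β (fun _ => 0) (fun hX => ?_) (fun hX ha => ?_)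
    (fun _ _ => map_zero (C.co _ _)) (fun X hX h5 => ?_) (fun _ => length_mapL_ul) xs
  · rw [add_comm, zero_add]
    exact S.β_mem hX
  · rw [add_comm, zero_add]
    exact C.ap_bact hX ha
  · cases r
    · change -(_ • S.β (S.D5 X)) + 0 + S.D5 _ = 0
      rw [S.D5_β hX, pow_one, neg_one_smul, neg_neg, add_zero, add_neg_cancel]
    · obtain ⟨c, hc, e⟩ := S.D9_β hX (h5 rfl)
      refine ⟨c, by rwa [add_comm 1, zero_add], ?_⟩
      change -(_ • S.β (S.D9 X)) + 0 + S.D9 _ = _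
      rw [e, pow_one, neg_one_smul, neg_neg, add_zero, add_neg_cancel_left]

include ht hf in
lemma all_oPeq (r : Bool) (s T x : ℕ) (ls : List ℕ) : C.All (O.oPeq t fs r s T x ls) := by
  refine all_guard fun h f hm => ?_
  obtain ⟨h1, h⟩ := band_iff.1 h
  obtain ⟨h2, h3⟩ := band_iff.1 h
  obtain ⟨l, hl, rfl⟩ := mem_mapL hm
  have h4 : C.vx s T x ∈ S.P s T := hf.has h2
  refine (C.ev_LE r h1 x (length_ul l)).trans
    (C.lam_rel ht (fun _ => length_mapL_ul) h3 ?_ (mem_mapL_of ul hl))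
  cases r
  · exact S.P_D5 h4
  · exact S.P_D9 h4

include ht hH hf in
lemma all_oPerm (s T x : ℕ) (us : List (List ℕ × ℕ)) (k₀ : ℕ) :
    C.All (O.oPerm t fs s T x us k₀) := by
  refine all_guard fun h => all_one ?_
  obtain ⟨h1, h⟩ := band_iff.1 h
  obtain ⟨h2, h3⟩ := band_iff.1 h
  have hx := C.vx_mem s T x
  obtain ⟨h4, h5⟩ := C.chkM_sound ht hf hx (C.ap_vx h1 x) (zero_mem _)
    (fun P₀ y hy => by rwa [map_zero, zero_add]) h2
  rw [add_zero] at h5
  refine S.P_of hx h4 h5 fun k hk => ?_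
  obtain ⟨k, rfl⟩ : ∃ k', k = k' + 3 := ⟨k - 3, by omega⟩
  rw [show s + 4 * (k + 3) + 1 = s + 13 + 4 * k by omega, show T + (k + 3) = T + 3 + k by omega]
  exact C.clRange_sound hH hf h3 k

include hf in
lemma all_oPact (m : Mx) (mu s T y z : ℕ) : C.All (O.oPact fs m mu s T y z) := by
  refine all_guard fun h => all_one ?_
  simp only [band_iff] at h
  obtain ⟨h1, h2, h3, h4, h5, h6, h7⟩ := h
  have h8 : C.den m ∈ S.P (O.dS m) (O.dT m) := by
    rw [C.eq_vx h1 (C.den_mem m) (C.ap_unit m) h6]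
    exact hf.has h4
  have h9 := S.P_mul h8 (hf.has h5)
  rwa [C.eq_vx h3 (S.P_le h9) (C.ap_act m (C.vx_mem s T y) (C.ap_vx h2 y)) h7] at h9

include hf in
lemma all_oPbok (s T y z : ℕ) : C.All (O.oPbok fs s T y z) := by
  refine all_guard fun h => all_one ?_
  simp only [band_iff] at h
  obtain ⟨h1, h2, h3, h4⟩ := h
  have h9 := S.P_β (hf.has h3)
  rwa [C.eq_vx h2 (S.P_le h9) (C.ap_bact (C.vx_mem s T y) (C.ap_vx h1 y)) h4] at h9

include hf in
lemma all_oPadd (s T x y z : ℕ) : C.All (O.oPadd fs s T x y z) := by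
  refine all_guard fun h => all_one ?_
  simp only [band_iff] at h
  obtain ⟨h1, h2, h3, h4⟩ := h
  have h9 : C.vx s T x + C.vx s T y ∈ S.P s T := add_mem (hf.has h2) (hf.has h3)
  rwa [C.eq_vx h1 (S.P_le h9) (by
    rw [map_add]
    exact (C.ap_vx h1 x).add (C.ap_vx h1 y)) h4] at h9

include ht hf in
lemma all_oCl (s T q : ℕ) (cs : List ℕ) (bs : List (Bool × ℕ × List (List ℕ × ℕ))) :
    C.All (O.oCl t fs s T q cs bs) := by
  refine all_guard fun h => all_one fun y hy => ?_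
  simp only [band_iff, Nat.ble_eq] at h
  obtain ⟨h1, h2, h3⟩ := h
  have h4 := (C.inv_covP ht (Orc.okc_iff.1 h1).1 cs).2 hy
  clear hy
  induction h4 using Submodule.span_induction with
  | mem X hX => exact C.allBd_sound ht hf h3 hX
  | zero => exact S.B_zero h2
  | add _ _ _ _ h h' => exact S.B_add h h'
  | smul c _ _ h => exact S.B_smul c h

include ht in
lemma all_oSeed5 (h b : Mx) (l : ℕ) : C.All (O.oSeed5 t h b l) := by
  refine all_guard fun H => all_one ?_
  simp only [band_iff] at H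
  obtain ⟨h1, h2, h3, h4⟩ := H
  obtain ⟨e1, e2, c, e3⟩ := C.line_sound h1 (S.P_le S.t_mem) S.t_ne
  obtain ⟨e4, e5, c', e6⟩ := C.line_sound h2 (S.P_le S.b_mem) S.b_ne
  refine (dg_ddot (ul l) (C.ap_unit (.mul h (.mul b (.mul b b))))).ne_zero h4 ?_
  change lam (ul l) (C.co (O.dS h + (O.dS b + (O.dS b + O.dS b)))
    (O.dT h + (O.dT b + (O.dT b + O.dT b)))
    (S.mul (C.den h) (S.mul (C.den b) (S.mul (C.den b) (C.den b))))) = 0
  obtain ⟨a, ha, e⟩ := S.B_elim5 (s := 2) (T := 9) S.seed5 (by norm_num)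
  have h5 : lam (ul l) (C.co 7 10 (S.D5 a)) = 0 := C.ann_sound ht (length_ul l) h3 ha
  simp only [e1, e2, e3, e4, e5, e6, map_smul, LinearMap.smul_apply, e]
  rw [h5]
  simp only [smul_zero]

include ht hf in
lemma all_oSeed9 (b : Mx) (cs : List ℕ) (l : ℕ) : C.All (O.oSeed9 t fs b cs l) := by
  refine all_guard fun H => all_one ?_
  simp only [band_iff] at H
  obtain ⟨h1, h2, h3, h4, h5, h6, h7⟩ := H
  obtain ⟨e4, e5, c', e6⟩ := C.line_sound h1 (S.P_le S.b_mem) S.b_ne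
  refine (dg_ddot (ul l) (C.ap_unit
    (.mul b (.mul b (.mul b (.mul b (.mul b (.mul b b)))))))).ne_zero h7 ?_
  change lam (ul l) (C.co
    (O.dS b + (O.dS b + (O.dS b + (O.dS b + (O.dS b + (O.dS b + O.dS b))))))
    (O.dT b + (O.dT b + (O.dT b + (O.dT b + (O.dT b + (O.dT b + O.dT b))))))
    (S.mul (C.den b) (S.mul (C.den b) (S.mul (C.den b) (S.mul (C.den b) (S.mul (C.den b)
      (S.mul (C.den b) (C.den b)))))))) = 0
  have k0 := (Orc.okc_iff.1 h2).1
  have k1 : S.mul S.b (S.mul S.b (S.mul S.b (S.mul S.b (S.mul S.b (S.mul S.b S.b))))) ∈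
      S.B 2 14 21 := S.B_succ S.seed9 (by norm_num) fun k W hk hW u hu => by
    obtain rfl : W = 18 := by omega
    rw [C.expand k0 hu (n := O.dim 1 18) fun _ => C.co_ge u]
    refine Submodule.sum_mem _ fun i hi => Submodule.smul_mem _ _ ?_
    rw [Finset.mem_range] at hi
    obtain ⟨k2, k3⟩ := band_iff.1 (allN_sound h3 hi)
    have k4 : C.vx 1 18 (Nat.pow 3 i) = C.e 1 18 i := by
      rw [← sub_eq_zero]
      refine C.inj k0 (sub_mem (C.vx_mem _ _ _) (C.e_mem _ _ _)) ?_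
      rw [map_sub, veq_sound (C.ap_vx h2 _) (C.ap_e k0 hi) k3, sub_self]
    exact k4 ▸ hf.has k2
  obtain ⟨a, ha, c, hc, k2, e⟩ := S.B_elim9 (s := 5) (T := 19) k1 le_rfl
  have k3 : lam (ul l) (C.co 14 21 (S.D5 a)) = 0 := C.ann_sound ht (length_ul l) h5 ha
  have k4 : lam (ul l) (C.co 14 21 (S.D9 c)) = 0 := by
    have k5 := (C.inv_cov ht (a9 := false) (Orc.okc_iff.1 h4).1
      (K := S.G 5 19 ⊓ LinearMap.ker S.D5) inf_le_left (fun _ h => h.2)
      (fun h => by cases h) cs).2 ⟨hc, k2⟩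
    refine Submodule.span_le.2
      (?_ : _ ⊆ (LinearMap.ker (C.fnl true 5 19 (ul l)) : Set S.A)) k5
    rintro X ⟨hX, v, hv, hXv⟩
    exact oisz_sound ht (C.eo_LD ht true hX hXv (length_ul l)) (allL_sound h6 hv)
  simp only [e4, e5, e6, map_smul, LinearMap.smul_apply, e, map_add]
  rw [k3, k4]
  simp only [smul_zero, add_zero]

include ht hf in
lemma all_oNe (r : Bool) (s T x l : ℕ) : C.All (O.oNe t fs r s T x l) := by
  refine all_guard fun H => all_one ?_
  simp only [band_iff, Nat.beq_eq] at H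
  obtain ⟨h1, h2, h3⟩ := H
  have h4 := dg_dig C.val_zero ht (LE r s T (O.ux s T x) (ul l))
  rw [h3, dg_two, C.ev_LE r h1 x (length_ul l)] at h4
  exact hf.has h2 h4

include hf in
lemma all_oGoal3 (j x : ℕ) : C.All (O.oGoal3 fs j x) := by
  refine all_guard fun H => all_one ?_
  obtain ⟨h1, h2⟩ := band_iff.1 H
  obtain ⟨h3, -, h4⟩ := C.isLd_sound h1
  change S.Goal j
  rw [SS.Goal, if_pos (by omega)]
  exact ⟨_, hf.has h2, h4⟩

include ht hH hf in
lemma all_oGoalA (j x z k₀ : ℕ) : C.All (O.oGoalA t fs j x z k₀) := by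
  refine all_guard fun H => all_one ?_
  simp only [band_iff] at H
  obtain ⟨h1, h2, h3, h4, h5⟩ := H
  obtain ⟨h6, h7, h8⟩ := C.isLd_sound h1
  change S.Goal (4 + j)
  rw [SS.Goal, if_neg (by omega), if_pos (by omega), Nat.add_sub_cancel_left]
  have hz := C.vx_mem 5 (3 ^ (j + 1) + 1) z
  refine ⟨⟨_, C.vx_mem _ _ x, _, hf.has h3, add_neg_eq_zero.1 ?_, h8⟩, fun s W hs hW => ?_⟩
  · refine C.chkD_sound ht (r := false) (C.vx_mem _ _ x) (C.ap_vx h7 x) (neg_mem (S.β_mem hz))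
      ?_ h4
    have h9 := fap_neg C.val_zero (C.ap_bact hz (C.ap_vx h2 z)) (P := .nil) rfl
    rw [add_zero, ← map_neg] at h9
    exact h9
  · obtain ⟨k, rfl, rfl⟩ : ∃ k, s = 10 + 4 * k ∧ W = 3 ^ (j + 1) + 2 + k :=
      ⟨(s - 10) / 4, by omega, by omega⟩
    exact C.clRange_sound hH hf h5 k

include ht in
lemma all_oGoal1 (cs : List ℕ) : C.All (O.oGoal1 t cs) := by
  refine all_guard fun H => all_one fun x hx => ?_
  obtain ⟨h1, h2⟩ := band_iff.1 H
  refine Submodule.span_le.2 (?_ : _ ⊆ ((⊥ : Submodule F S.A) : Set S.A))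
    ((C.inv_covP ht (Orc.okc_iff.1 h1).1 cs).2 hx)
  rintro X ⟨-, v, hv, -⟩
  cases allL_sound h2 hv

include ht hf in
lemma all_oIm (s T v x : ℕ) (us : List (List ℕ × ℕ)) : C.All (O.oIm t fs s T v x us) := by
  refine all_guard fun H => all_one ?_
  have h1 := C.ap_vx (band_iff.1 (band_iff.1 H).2).1 v
  obtain ⟨c, hc, e⟩ := C.chkI_sound ht hf H (C.vx_mem _ _ v) h1
  exact ⟨c, hc, e ▸ h1⟩

include ht hf in
lemma all_oPbd (s T v : ℕ) (b : Bool × ℕ × List (List ℕ × ℕ)) : C.All (O.oPbd t fs s T v b) := by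
  refine all_guard fun H => all_one ?_
  obtain ⟨h1, h2⟩ := band_iff.1 H
  exact S.B_P (C.bdOK_sound ht hf h2 (C.vx_mem s T v) (C.ap_vx h1 v))

include ht in
lemma all_oZcov (r : Bool) (s T x : ℕ) (cs : List ℕ) (l : ℕ) :
    C.All (O.oZcov t r s T x cs l) := by
  refine all_guard fun H => all_one ?_
  simp only [band_iff] at H
  obtain ⟨h1, h2, h3, h4⟩ := H
  have hx := C.vx_mem s T x
  have h5 : S.D r (C.vx s T x) ∈ S.P (tS r s) (tT r T) := by
    cases r
    · exact S.B_P (S.B_D5 hx)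
    · exact S.B_P (S.B_D9 hx (C.ker_sound ht hx (C.ap_vx h1 x) h3))
  refine (C.ev_LE r h1 x (length_ul l)).trans ?_
  refine Submodule.span_le.2 (?_ : _ ⊆ (LinearMap.ker ((lam (ul l)).comp
    (C.co (tS r s) (tT r T))) : Set S.A)) ((C.inv_covP ht (Orc.okc_iff.1 h2).1 cs).2 h5)
  rintro X ⟨-, v, hv, hXv⟩
  have h6 := dg_ddot (ul l) hXv
  rw [Nat.eq_of_beq_eq_true (allL_sound h4 hv)] at h6
  exact dg_zero.1 h6

include ht hH hf in
/-- **Soundness of the rules.** -/
theorem all_out (r : Rule) : C.All (O.out t fs r) := by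
  cases r with
  | mrec id r m ws us => exact C.all_oMrec ht hf id r m ws us
  | leib id s T xs ls => exact C.all_oLeib ht hf id s T xs ls
  | bok r s T xs ls => exact C.all_oBok ht r s T xs ls
  | dd r r' s T xs ls => exact C.all_ddJobs ht r r' s T (fun _ => length_mapL_ul) xs
  | peq r s T x ls => exact C.all_oPeq ht hf r s T x ls
  | perm s T x us k₀ => exact C.all_oPerm ht hH hf s T x us k₀
  | pact m mu s T y z => exact C.all_oPact hf m mu s T y z
  | pbok s T y z => exact C.all_oPbok hf s T y z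
  | padd s T x y z => exact C.all_oPadd hf s T x y z
  | cl s T q cs bs => exact C.all_oCl ht hf s T q cs bs
  | seed5 h b l => exact C.all_oSeed5 ht h b l
  | seed9 b cs l => exact C.all_oSeed9 ht hf b cs l
  | ne r s T x l => exact C.all_oNe ht hf r s T x l
  | goal3 j x => exact C.all_oGoal3 hf j x
  | goalA j x z k₀ => exact C.all_oGoalA ht hH hf j x z k₀
  | goal1 cs => exact C.all_oGoal1 ht cs
  | im s T v x us => exact C.all_oIm ht hf s T v x us
  | pbd s T v b => exact C.all_oPbd ht hf s T v b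
  | zcov r s T x cs l => exact C.all_oZcov ht r s T x cs l

end CrdO

end Vale.Agent.P236E
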