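import Vale.Agent.P236E.Snd3

/-!
# P236, block ENG: soundness of the checker

* `CrdO.chunk_sound`: the exported facts of a chunk hold if the imported facts hold;
* `exists_sign`: the normalisation of the signs of `D5` and `D9`;
* `goals_of`: the final form.
-/

namespace Vale.Agent.P236E

namespace CrdO

variable {O : Orc} {S : SS} (C : CrdO O S)

/-- The state is correct. -/
def SH (st : St) : Prop := st.bad = false ∧ TrH C.val st.tr ∧ C.All st.fs

lemma solve_sound {t : Tr} {fs : List Fact} {b : Bool} (h : C.SH ⟨t, fs, b⟩) {f : Fm}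
    (hf : ev C.val f = 0) : ∃ st, C.SH st ∧ ∀ K, solve t fs b K f = K st := by
  cases f with
  | nil => exact ⟨_, h, fun _ => rfl⟩
  | cons v c r =>
    cases v with
    | zero =>
      cases r with
      | nil =>
        exfalso
        cases c
        · rw [ev_false, val_zero, ev_nil] at hf
          exact absurd hf (by decide)
        · rw [ev_true, val_zero, ev_nil] at hf
          exact absurd hf (by decide)
      | cons _ _ _ => exact ⟨_, h, fun _ => rfl⟩
    | succ v =>
      obtain ⟨t', h1, h2⟩ := ins_spec (α := St) (Bool.rec (fneg r) r c) 64 t (v + 1)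
      refine ⟨⟨t', fs, b⟩, ⟨h.1, fun k g hk => ?_, h.2.2⟩,
        fun K => (force_eq _ _).trans (h1 _)⟩
      rcases h2 k g hk with ⟨rfl, rfl⟩ | h3
      · cases c
        · exact (eq_neg_of_add_eq_zero_left hf).trans (ev_fneg _ r).symm
        · exact neg_add_eq_zero.1 hf
      · exact h.2.1 k g h3

lemma addF_sound {st : St} (h : C.SH st) {f : Fact} (hf : C.FH f) :
    ∃ st', C.SH st' ∧ ∀ K, addF f st K = K st' := by
  obtain ⟨t, fs, b⟩ := st
  have key : C.SH ⟨t, f :: fs, b⟩ := ⟨h.1, h.2.1, All.cons hf h.2.2⟩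
  cases f with
  | eqf g => exact C.solve_sound h ((ev_red h.2.1 g).trans hf)
  | bad => exact hf.elim
  | _ => exact ⟨_, key, fun _ => rfl⟩

lemma addAll_sound {l : List Fact} (hl : C.All l) {st : St} (h : C.SH st) :
    ∃ st', C.SH st' ∧ ∀ K, addAll l st K = K st' := by
  induction l generalizing st with
  | nil => exact ⟨st, h, fun _ => rfl⟩
  | cons f l ih =>
    obtain ⟨st₁, h1, e1⟩ := C.addF_sound h (hl f List.mem_cons_self)
    obtain ⟨st₂, h2, e2⟩ := ih (fun g hg => hl g (List.mem_cons_of_mem _ hg)) h1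
    exact ⟨st₂, h2, fun K => (e1 _).trans (e2 K)⟩

variable (hH : S.High)

include hH

lemma hasAll_sound {st : St} (h : C.SH st) {l : List Fact} (hl : hasAll l st = true) :
    C.All l := by
  obtain ⟨t, fs, b⟩ := st
  obtain ⟨rfl, h1, h2⟩ : b = false ∧ TrH C.val t ∧ C.All fs := h
  intro f hf
  have h3 : has t fs f = true := allL_sound hl hf
  cases f with
  | eqf g => exact isz_sound h1 h3
  | bad => cases h3
  | cl s T q => exact C.clOK_sound hH h2 h3
  | _ => exact h2.has h3

lemma run_sound (p : Pf) {st : St} (h : C.SH st) : C.SH (O.run p st) := by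
  induction p generalizing st with
  | done => exact h
  | step r k ih =>
    obtain ⟨t, fs, b⟩ := st
    obtain ⟨st', h1, e⟩ := C.addAll_sound (C.all_out h.2.1 hH h.2.2 r) h
    exact (congrArg C.SH (e (O.run k))).mpr (ih h1)
  | cases φ p0 p1 p2 ex k i0 i1 i2 ih =>
    change C.SH (Bool.rec (O.run k st) (addAll ex st (O.run k))
      (band (hasAll ex (addF (.eqf (dec φ)) st (O.run p0)))
        (band (hasAll ex (addF (.eqf (fadd (dec φ) (.cons 0 true .nil))) st (O.run p1)))
          (hasAll ex (addF (.eqf (fadd (dec φ) (.cons 0 false .nil))) st (O.run p2))))))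
    generalize hb : band _ _ = b
    cases b
    · exact ih h
    obtain ⟨h0, hb⟩ := band_iff.1 hb
    obtain ⟨h1, h2⟩ := band_iff.1 hb
    have hex : C.All ex := by
      have key : ∀ a : F, a = 0 ∨ a + (-1 + 0) = 0 ∨ a + (1 + 0) = 0 := by decide
      rcases key (ev C.val (dec φ)) with e | e | e
      · obtain ⟨st', h3, e'⟩ := C.addF_sound h (f := .eqf (dec φ)) e
        exact C.hasAll_sound hH (i0 h3) (by rwa [e'] at h0)
      · obtain ⟨st', h3, e'⟩ := C.addF_sound h (f := .eqf (fadd (dec φ) (.cons 0 true .nil)))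
          ((ev_fadd _ _ _).trans e)
        exact C.hasAll_sound hH (i1 h3) (by rwa [e'] at h1)
      · obtain ⟨st', h3, e'⟩ := C.addF_sound h (f := .eqf (fadd (dec φ) (.cons 0 false .nil)))
          ((ev_fadd _ _ _).trans e)
        exact C.hasAll_sound hH (i2 h3) (by rwa [e'] at h2)
    obtain ⟨st', h3, e⟩ := C.addAll_sound hex h
    exact (e (O.run k)).symm ▸ ih h3

/-- **Soundness of the checker.** -/
theorem chunk_sound {ins outs : List Fact} {p : Pf} (hi : C.All ins)
    (h : O.chunk ins p outs = true) : C.All outs := by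
  obtain ⟨st, h1, e⟩ := C.addAll_sound hi (st := ⟨.leaf, [], false⟩)
    ⟨rfl, trH_leaf _, all_nil⟩
  exact C.hasAll_sound hH (C.run_sound hH p h1) (by rwa [Orc.chunk, e] at h)

end CrdO

/-- Change of the signs of the differentials. -/
noncomputable def SS.sc (S : SS) (a b : F) (ha : a * a = 1) (hb : b * b = 1) : SS :=
  have k0 : ∀ {x : S.A}, a • x = 0 → x = 0 := fun {x} h => by
    rw [← one_smul F x, ← ha, mul_smul, h, smul_zero]
  have k1 : ∀ (c : F) (x : S.A), (a • S.D5) ((a * c) • x) = c • S.D5 x := fun c x => by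
    rw [LinearMap.smul_apply, map_smul, smul_smul, ← _root_.mul_assoc, ha, _root_.one_mul]
  { S with
    D5 := a • S.D5
    D9 := b • S.D9
    D5_mem := fun h => Submodule.smul_mem _ _ (S.D5_mem h)
    D5_mul := fun hx hy => by
      simp only [LinearMap.smul_apply, S.D5_mul hx hy, map_smul, smul_add, smul_comm a]
    D5_β := fun hx => by simp only [LinearMap.smul_apply, S.D5_β hx, map_smul, smul_neg]
    D5_D5 := fun hx => by simp only [LinearMap.smul_apply, S.D5_D5 hx, map_smul, smul_zero]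
    D9_mem := fun h => Submodule.smul_mem _ _ (S.D9_mem h)
    D9_mul := fun hx hy h h' => by
      obtain ⟨c, hc, e⟩ := S.D9_mul hx hy (k0 h) (k0 h')
      refine ⟨(a * b) • c, Submodule.smul_mem _ _ hc, ?_⟩
      rw [k1]
      simp only [LinearMap.smul_apply, e, map_smul, smul_add, smul_comm b]
    D9_β := fun hx h => by
      obtain ⟨c, hc, e⟩ := S.D9_β hx (k0 h)
      refine ⟨(a * b) • c, Submodule.smul_mem _ _ hc, ?_⟩
      rw [k1]
      simp only [LinearMap.smul_apply, e, map_smul, smul_add, smul_neg]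
    D9_D5 := fun hx => by
      obtain ⟨c, hc, e⟩ := S.D9_D5 hx
      refine ⟨(a * (a * b)) • c, Submodule.smul_mem _ _ hc, ?_⟩
      rw [k1]
      simp only [LinearMap.smul_apply, e, map_smul, smul_smul]
    D5_D9 := fun hx h => by
      simp only [LinearMap.smul_apply, S.D5_D9 hx (k0 h), map_smul, smul_zero]
    D9_D9 := fun hx h => by
      obtain ⟨c, hc, e⟩ := S.D9_D9 hx (k0 h)
      refine ⟨(a * (b * b)) • c, Submodule.smul_mem _ _ hc, ?_⟩
      rw [k1]
      simp only [LinearMap.smul_apply, e, map_smul, smul_smul]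
    P_D5 := fun hx => by rw [LinearMap.smul_apply, S.P_D5 hx, smul_zero]
    P_D9 := fun hx => by
      obtain ⟨c, hc, e⟩ := S.P_D9 hx
      exact ⟨(a * b) • c, Submodule.smul_mem _ _ hc, by rw [k1, LinearMap.smul_apply, e]⟩
    P_of := fun hx h ⟨c, hc, e⟩ H => S.P_of hx (k0 h) ⟨(b * a) • c, Submodule.smul_mem _ _ hc, by
      rw [map_smul, mul_smul, ← LinearMap.smul_apply a, ← e, LinearMap.smul_apply, smul_smul, hb,
        one_smul]⟩ H
    B_D5 := fun hx => S.B_smul a (S.B_D5 hx)
    B_D9 := fun hx h => S.B_smul b (S.B_D9 hx (k0 h))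
    B_elim5 := fun hy h => by
      obtain ⟨c, hc, e⟩ := S.B_elim5 hy h
      exact ⟨(a * 1) • c, Submodule.smul_mem _ _ hc, by rw [k1, one_smul, e]⟩
    B_elim9 := fun hy h => by
      obtain ⟨c, hc, c', hc', e, e'⟩ := S.B_elim9 hy h
      refine ⟨(a * 1) • c, Submodule.smul_mem _ _ hc, b • c', Submodule.smul_mem _ _ hc', ?_, ?_⟩
      · rw [LinearMap.smul_apply, map_smul, e, smul_zero, smul_zero]
      · rw [k1, one_smul, LinearMap.smul_apply, map_smul, smul_smul, hb, one_smul, e'] }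

section Sign

variable {O : Orc} {S : SS} {a b : F} (ha : a * a = 1) (hb : b * b = 1)

/-- The coordinates do not change. -/
def CrdO.sc (C : CrdO O S) : CrdO O (S.sc a b ha hb) :=
  ⟨C.co, C.co_ge, C.inj, C.surj, C.ok_zero, C.co_one, C.mu, C.mu_mem, C.gen, C.bok, C.lead⟩

lemma goal_of_sc {n : ℕ} (h : (S.sc a b ha hb).Goal n) : S.Goal n := by
  unfold SS.Goal at h ⊢
  split_ifs at h ⊢
  · exact h
  · obtain ⟨⟨x, hx, z, hz, e, hl⟩, H⟩ := h
    refine ⟨⟨x, hx, a • z, Submodule.smul_mem (S.P _ _) _ hz, ?_, hl⟩, H⟩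
    have key : ∀ x z : S.A, a • S.D5 x = S.β z → S.D5 x = S.β (a • z) := fun x z e => by
      rw [map_smul, ← e, smul_smul, ha, one_smul]
    exact key x z e
  · exact h

lemma vx_sc (C : CrdO O S) (s T x : ℕ) : (C.sc ha hb).vx s T x = C.vx s T x := rfl

end Sign

theorem exists_sc {O : Orc} {S : SS} (C : CrdO O S) (s T x l s' T' x' l' : ℕ) :
    ∃ (a b : F) (ha : a * a = 1) (hb : b * b = 1),
      (C.sc ha hb).All [.ne false s T x l, .ne true s' T' x' l'] := by
  have key : ∀ c : F, ∃ a : F, a * a = 1 ∧ a * c ≠ 2 := by decide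
  obtain ⟨a, ha, h1⟩ := key (C.fnl false s T (ul l) (C.vx s T x))
  obtain ⟨b, hb, h2⟩ := key (C.fnl true s' T' (ul l') (C.vx s' T' x'))
  refine ⟨a, b, ha, hb, CrdO.All.cons ?_ (CrdO.all_one ?_)⟩
  · change lam (ul l) (C.co _ _ (a • S.D5 (C.vx s T x))) ≠ 2
    rw [map_smul, map_smul]
    exact h1
  · change lam (ul l') (C.co _ _ (b • S.D9 (C.vx s' T' x'))) ≠ 2
    rw [map_smul, map_smul]
    exact h2

/-- **Normalisation of the signs.** -/
theorem exists_sign {O : Orc} {S : SS} (C : CrdO O S) (hH : S.High) (s T x l s' T' x' l' : ℕ) :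
    ∃ (S' : SS) (C' : CrdO O S'), S'.High ∧ C'.All [.ne false s T x l, .ne true s' T' x' l'] ∧
      ∀ n, S'.Goal n → S.Goal n := by
  obtain ⟨a, b, ha, hb, h⟩ := exists_sc C s T x l s' T' x' l'
  exact ⟨S.sc a b ha hb, C.sc ha hb, hH, h, fun _ => goal_of_sc ha hb⟩

/-- The facts `outs` follow from the facts `ins` in every spectral sequence. -/
def Orc.Imp (O : Orc) (ins outs : List Fact) : Prop :=
  ∀ (S : SS) (C : CrdO O S), S.High → C.All ins → C.All outs

theorem Orc.imp_of_chunk {O : Orc} {ins outs : List Fact} {p : Pf}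
    (h : O.chunk ins p outs = true) : O.Imp ins outs :=
  fun _ C hH hi => C.chunk_sound hH hi h

theorem Orc.Imp.trans {O : Orc} {l₁ l₂ l₃ : List Fact} (h : O.Imp l₁ l₂) (h' : O.Imp l₂ l₃) :
    O.Imp l₁ l₃ := fun S C hH hi => h' S C hH (h S C hH hi)

theorem Orc.Imp.append {O : Orc} {l₁ l₂ l₃ : List Fact} (h : O.Imp l₁ l₂) (h' : O.Imp l₁ l₃) :
    O.Imp l₁ (l₂ ++ l₃) := fun S C hH hi f hf =>
  (List.mem_append.1 hf).elim (h S C hH hi f) (h' S C hH hi f)

theorem Orc.imp_refl (O : Orc) (l : List Fact) : O.Imp l l := fun _ _ _ h => h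

/-- **The final form.** -/
theorem goals_of {O : Orc} {s T x l s' T' x' l' : ℕ} {outs : List Fact}
    (h : O.Imp [.ne false s T x l, .ne true s' T' x' l'] outs) {S : SS} (C : CrdO O S)
    (hH : S.High) {n : ℕ} (hn : .goal n ∈ outs) : S.Goal n := by
  obtain ⟨S', C', h1, h2, h3⟩ := exists_sign C hH s T x l s' T' x' l'
  exact h3 n (h S' C' h1 h2 _ hn)

theorem outs_of {O : Orc} {s T x l s' T' x' l' : ℕ} {outs : List Fact}
    (h : O.Imp [.ne false s T x l, .ne true s' T' x' l'] outs) (h8 : .goal 8 ∈ outs)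
    (h2 : .goal 2 ∈ outs) (h7 : .goal 7 ∈ outs) {S : SS} (C : CrdO O S) (hH : S.High) :
    S.Out1 ∧ S.Out3 2 ∧ S.Out 3 :=
  ⟨goals_of h C hH h8, goals_of h C hH h2, goals_of h C hH h7⟩

end Vale.Agent.P236E
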