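import Vale.Agent.P236E.Dif
import Vale.Agent.P236L.Comm
import Vale.Agent.P236P.High
import Vale.Agent.P236K.BNe
import Vale.Agent.P236H.Alg

/-!
# P236, block ENG: the `MU` tower of `S / 3` gives an abstract spectral sequence

* `top`: the structure `SS`;
* `exists_SS`: `High`, `Real τ → Crd τ S`, and the translation of `Out`, `Out3`, `Out1`.
-/

open CategoryTheory MonoidalCategory Limits Pretriangulated

set_option linter.unusedSectionVars false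

universe v u

namespace Vale.Agent.P236E

open Vale.Agent.P251 Vale.Agent.P251.T Vale.Agent.P251.F Vale.Agent.P251.I Vale.Agent.P251.M
  Vale.Agent.P257 Vale.Agent.P257.H314 Vale.Agent.P257.H93 Vale.Agent.P236K Vale.Agent.P236L
  Vale.Agent.P236S
open Vale.Agent.P251.S hiding IC

lemma mul_comm' {a U s T : ℕ} {x y : A} (hx : x ∈ G a U) (hy : y ∈ G s T) :
    mul x y = (-1 : F) ^ (a * s) • mul y x := by
  obtain ⟨x, rfl⟩ := hx
  obtain ⟨y, rfl⟩ := hy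
  rw [mul_cl rfl rfl, mul_cl (add_comm _ _) (add_comm _ _), sign_smul, ← map_zsmul]
  exact cl_eq.2 (isB_comm rfl rfl (add_comm _ _) (add_comm _ _) x.2 y.2)

/-- Change of the weight. -/
def cw {s : ℕ} {w w' : ℤ} (h : w = w') (x : Cob.wt Laz s w) : Cob.wt Laz s w' := ⟨x.1, h ▸ x.2⟩

section Seeds

variable {t : Cob Laz 1} (ht : IsT1 3 t)

/-- The cocycle `t`. -/
def tZ : Z 1 1 := ⟨cw (by norm_num) (tW ht), by
  change Cob.d 1 t ∈ IC 3 1 2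
  rw [(BCocycle 3 (by norm_num) t ht).2.1]
  exact zero_mem _⟩

lemma d_b : Cob.d 2 (bW ht).1 ∈ IC 3 1 3 := by
  rw [P236P.d_bW]
  exact zero_mem _

/-- The cocycle `b`. -/
noncomputable def bZ : Z 2 3 := ⟨cw (by norm_num) (bW ht), d_b ht⟩

lemma dP_zero (e : CobP 3 0) : dP 0 e = 0 := by
  have h : (dl 0 0 : CobP 3 0 →+* CobP 3 1) = dl 0 1 :=
    MvPolynomial.ringHom_ext' (RingHom.ext_zmod _ _) fun k => k.1.elim0
  rw [dP_apply, Finset.sum_range_succ, Finset.sum_range_one, h]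
  simp

lemma t_ne : cl 1 1 (tZ ht) ≠ 0 := by
  intro h
  obtain ⟨e, he⟩ := cl_eq_zero.1 h
  have h1 := fP_IC he
  rw [map_sub, fP_d, dP_zero, sub_zero] at h1
  exact MvPolynomial.X_ne_zero _ ((P236H.fP_t ht).symm.trans h1)

lemma b_ne : cl 2 3 (bZ ht) ≠ 0 := by
  intro h
  obtain ⟨e, he⟩ := cl_eq_zero.1 h
  have h1 := fP_IC he
  rw [map_sub, fP_d, sub_eq_zero] at h1
  exact bne 0 ⟨_, h1.symm.trans (H545.fP_bcls ht)⟩

lemma b_onto {s T : ℕ} {y : A} (h : 2 * T < 9 * s + 1) (hy : y ∈ G (s + 2) (T + 3)) :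
    ∃ z ∈ G s T, y = mul z (cl 2 3 (bZ ht)) := by
  obtain ⟨y, rfl⟩ := hy
  obtain ⟨c, e, h1, h2⟩ := P236P.onto_b (d_b ht) (H545.fP_bcls ht) (s := s) (w := 2 * (T : ℤ))
    (by omega) (cw (by push_cast; ring) y.1) y.2
  refine ⟨_, cl_mem ⟨c, h1⟩, ?_⟩
  rw [mul_cl rfl rfl]
  exact cl_eq.2 ⟨cw (by push_cast; ring) e, h2⟩

lemma b_inj {s T : ℕ} {z : A} (h : 2 * T < 9 * s + 1) (hz : z ∈ G (s + 1) T)
    (h0 : mul z (cl 2 3 (bZ ht)) = 0) : z = 0 := by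
  obtain ⟨z, rfl⟩ := hz
  rw [mul_cl rfl rfl, cl_eq_zero] at h0
  obtain ⟨e, he⟩ := h0
  exact cl_eq_zero.2 (P236P.inj_b (d_b ht) (H545.fP_bcls ht) (s := s) (w := 2 * (T : ℤ))
    (by omega) z.1 z.2 (cw (by push_cast; ring) e) he)

/-- Powers of `b`. -/
noncomputable def bpZ : ∀ K : ℕ, Z (2 * K) (3 * K)
  | 0 => oneZ
  | K + 1 => cupZ rfl rfl (bpZ K) (bZ ht)

lemma coe_bpZ (K : ℕ) : (bpZ ht K).1.1 = cupPow (bcls 3 t) K := by
  induction K with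
  | zero => rfl
  | succ K ih => exact congrArg (fun x => Cob.cup x (bcls 3 t)) ih

lemma cl_bpZ (K : ℕ) : cl (2 * (K + 1)) (3 * (K + 1)) (bpZ ht (K + 1)) =
    mul (cl 2 3 (bZ ht)) (cl _ _ (bpZ ht K)) := by
  rw [mul_comm' (cl_mem _) (cl_mem _), Even.neg_one_pow ⟨2 * K, by ring⟩, one_smul]
  exact (mul_cl rfl rfl _ _).symm

lemma cl_bpZ_one : cl (2 * 1) (3 * 1) (bpZ ht 1) = cl 2 3 (bZ ht) :=
  (cl_bpZ ht 0).trans (mul_one' (cl_mem _))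

end Seeds

/-- The classes which reduce to `± b_j`. -/
def LL (j : ℕ) : Set A := {x | ∃ z : Z 2 (3 ^ (j + 1)), Lead j z.1 ∧ cl _ _ z = x}

lemma lead_of {j : ℕ} {z : Z 2 (3 ^ (j + 1))} (h : cl _ _ z ∈ LL j) : Lead j z.1 := by
  obtain ⟨z', ⟨ε, e, h1, h2⟩, h3⟩ := h
  obtain ⟨f, hf⟩ := cl_eq.1 h3.symm
  have h4 := fP_IC hf
  refine ⟨ε, e + fP 3 1 f.1, h1, ?_⟩
  change fP 3 2 (z.1.1 - z'.1.1 - Cob.d 1 f.1) = 0 at h4
  rw [map_sub, map_sub, fP_d, h2, sub_sub, sub_eq_zero] at h4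
  rw [h4, map_add, add_assoc]

variable {𝒯 : Type u} [Category.{v} 𝒯] [Preadditive 𝒯] [HasZeroObject 𝒯]
    [HasShift 𝒯 ℤ] [∀ n : ℤ, (shiftFunctor 𝒯 n).Additive] [Pretriangulated 𝒯]
    [MonoidalCategory 𝒯] [SymmetricCategory 𝒯] [TensorTriangulated 𝒯] [HasCoproducts.{0} 𝒯]
    [MonoidalClosed 𝒯] [IsTriangulated 𝒯] [HasProducts.{0} 𝒯] [StableCat 𝒯]
    {D : MUData 𝒯} {U : UnitCof D.R} {V : 𝒯} {i : 𝟙_ 𝒯 ⟶ V}
    {δ : V ⟶ (𝟙_ 𝒯)⟦(1 : ℤ)⟧} (hC : Triangle.mk ((3 : ℤ) • 𝟙 (𝟙_ 𝒯)) i δ ∈ distTriang 𝒯)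
    {m : V ⊗ V ⟶ V} (hm : (i ▷ V) ≫ m = (λ_ V).hom) (hS : Seed D U V 3)
    {t : Cob Laz 1} (ht : IsT1 3 t)

include hS in
lemma seed5 : mul (cl 1 1 (tZ ht)) (mul (cl 2 3 (bZ ht)) (mul (cl 2 3 (bZ ht)) (cl 2 3 (bZ ht))))
    ∈ BB D U i 0 7 10 := by
  have hb := cl_mem (bZ ht)
  rw [← mul_assoc' (cl_mem _) hb (mul_mem hb hb), ← mul_assoc' (mul_mem (cl_mem _) hb) hb hb,
    mul_cl (s' := 3) (T' := 4) rfl rfl, mul_cl (s' := 5) (T' := 7) rfl rfl,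
    mul_cl (s' := 7) (T' := 10) rfl rfl]
  exact ⟨_, Bd.cast (hS.tbbb ht) rfl (by norm_num) HEq.rfl, rfl⟩

include hC hS in
lemma seed9 : cl (2 * 7) (3 * 7) (bpZ ht 7) ∈ BB D U i 1 14 21 :=
  ⟨bpZ ht 7, Bd.cast (hS.b7_one ht (gen_three hC)) rfl (by norm_num)
    (heq_of_eq (coe_bpZ ht 7).symm), rfl⟩

/-- The abstract spectral sequence of `S / 3`. -/
noncomputable def top : SS where
  A := A
  G := G
  van := van
  mul := mul
  mul_mem := mul_mem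
  mul_assoc := mul_assoc'
  mul_comm := mul_comm'
  one := cl 0 0 oneZ
  one_mem := cl_mem _
  mul_one := mul_one'
  one_mul := one_mul'
  β := bk
  β_mem := bk_mem
  β_mul := bk_mul
  D5 := d5 D U hC
  D5_mem := d5_mem hC
  D5_mul := d5_mul hC hm
  D5_β := d5_bk hC
  D5_D5 hx := pp_d5 hC (bb_pp (d5_bb hC hx))
  D9 := d9 D U hC
  D9_mem := d9_mem hC
  D9_mul := d9_mul hC hm
  D9_β := d9_bk hC
  D9_D5 hx := pp_d9 hC (bb_pp (d5_bb hC hx))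
  D5_D9 hx h := pp_d5 hC (bb_pp (d9_bb hC hx h))
  D9_D9 hx h := pp_d9 hC (bb_pp (d9_bb hC hx h))
  P := PP D U i
  B := BB D U i
  P_le hx := by
    obtain ⟨z, -, rfl⟩ := mem_PP.1 hx
    exact cl_mem z
  P_D5 := pp_d5 hC
  P_D9 := pp_d9 hC
  P_of := pp_of hC
  P_mul := pp_mul hm
  P_β := pp_bk hC
  B_P := bb_pp
  B_zero h := ⟨0, bd_zero h, map_zero _⟩
  B_add := by
    rintro t s T _ _ ⟨x, hx, rfl⟩ ⟨y, hy, rfl⟩
    exact ⟨x + y, hx.add hy, map_add _ _ _⟩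
  B_smul := by
    rintro t s T _ c ⟨x, hx, rfl⟩
    obtain ⟨n, rfl⟩ := ZMod.intCast_surjective c
    exact ⟨n • x, hx.zsmul n, by rw [map_zsmul, cast_smul]⟩
  B_mono := by
    rintro t t' s T _ h ⟨x, hx, rfl⟩
    exact ⟨x, hx.mono h, rfl⟩
  B_D5 := d5_bb hC
  B_D9 := d9_bb hC
  B_succ := bb_succ hC
  B_elim5 := by
    rintro t s T _ ⟨y, hy, rfl⟩ h
    exact elim5 hC hy h
  B_elim9 := by
    rintro t s T _ ⟨y, hy, rfl⟩ h
    exact elim9 hC hy h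
  t := cl 1 1 (tZ ht)
  b := cl 2 3 (bZ ht)
  t_mem := ⟨tZ ht, Perm.cast (perm_tW ht) (by norm_num) rfl, rfl⟩
  b_mem := ⟨bZ ht, Perm.cast (perm_bW ht) (by norm_num) rfl, rfl⟩
  t_ne := t_ne ht
  b_ne := b_ne ht
  seed5 := seed5 hS ht
  seed9 := by
    have h := seed9 hC hS ht
    rwa [cl_bpZ, cl_bpZ, cl_bpZ, cl_bpZ, cl_bpZ, cl_bpZ, cl_bpZ_one] at h
  b_onto := b_onto ht
  b_inj := b_inj ht
  Ld := LL

theorem top_high : (top hC hm hS ht).High := by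
  intro s T h y hy
  obtain ⟨z, hz, rfl⟩ := mem_PP.1 hy
  exact ⟨z, P236P.high (gen_three hC) hm hS
    (isST_one (D := D) (p := 3) (by norm_num) hC).bigCell (by omega) z.2 hz, rfl⟩

theorem top_out3 {j : ℕ} (H : (top hC hm hS ht).Out3 j) : EngOut3 D U i j := by
  obtain ⟨x, hx, hl⟩ := H
  obtain ⟨z, hz, rfl⟩ := mem_PP.1 hx
  obtain ⟨y, hy⟩ := exists_bk z
  exact ⟨z.1, y.1, hy, hz, lead_of (bk_cl hy ▸ hl)⟩

theorem top_out1 (H : (top hC hm hS ht).Out1) : EngOut1 D U i :=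
  fun x hx hp => cl_eq_zero.1 (H (cl 2 9 ⟨x, hx⟩) ⟨⟨x, hx⟩, hp, rfl⟩)

theorem top_out {j : ℕ} (H : (top hC hm hS ht).Out j) : EngOut D U i j := by
  have G : Gen D U i (IC 3 1) := gen_three hC
  obtain ⟨⟨_, ⟨x, rfl⟩, z, hz, e, hl⟩, H⟩ := H
  obtain ⟨z, hp, rfl⟩ := mem_PP.1 hz
  obtain ⟨x₂, hx⟩ := exists_bk x
  obtain ⟨y, hy⟩ := exists_bk z
  obtain ⟨y', hd⟩ := exists_dif5 (D := D) (U := U) hC x
  refine ⟨⟨x.1, x₂.1, z.1, y.1, hx, hy, ?_, hp, lead_of (bk_cl hx ▸ hl)⟩,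
    fun s W y hs hW hy => ?_⟩
  · have h1 : cl 6 _ y = cl 6 _ y' := (bk_cl hy).symm.trans (e.symm.trans (d5_cl hC hd rfl))
    exact hd.of_bd_sub (bd_of_isB hC (cl_eq.1 h1) (by omega))
  · obtain ⟨n, h, c, hc⟩ := hy
    obtain ⟨z, h1, h2⟩ := G.exists_cocycle h _ ((H712.CV U V).isCocycle_j c)
    obtain ⟨_, h3, h4⟩ := (cl_mem_BB hC (z := ⟨z, h1⟩) (by omega)).1
      (H s W hs hW _ ⟨⟨z, h1⟩, ⟨n, h, c, h2.symm⟩, rfl⟩)
    obtain rfl : n = _ := add_right_cancel (h.trans h3.symm)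
    exact ⟨n, h, hc ▸ h2 ▸ h4⟩

theorem top_crd {τ : Tab} (R : Real τ) : Nonempty (Crd τ (top hC hm hS ht)) := by
  obtain ⟨φ, hφ⟩ := exists_lin (M := ℕ × ℕ → ℕ → F) (fun s T =>
    (AddMonoidHom.single (fun _ : ℕ × ℕ => ℕ → F) (s, T)).comp
      ((if τ.reg s T = true then R.co s T else 0).comp (Z s T).subtype)) fun s T z hz => by
    by_cases h : τ.reg s T = true
    · rw [if_pos h, AddMonoidHom.comp_apply, AddMonoidHom.comp_apply, AddSubgroup.subtype_apply,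
        (R.ker s T h z.1 z.2).2 hz, map_zero]
    · rw [if_neg h, AddMonoidHom.zero_comp, AddMonoidHom.comp_zero, AddMonoidHom.zero_apply]
  let co : ℕ → ℕ → A →ₗ[F] (ℕ → F) := fun s T => (LinearMap.proj (s, T)).comp φ
  have hco : ∀ {s T : ℕ}, τ.reg s T = true → ∀ z : Z s T, co s T (cl s T z) = R.co s T z.1 :=
    fun {s T} h z => by
      change φ (cl s T z) (s, T) = _
      rw [hφ, if_pos h]
      exact Pi.single_eq_same _ _
  refine ⟨{ co := co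
            co_ge := fun {s T l} x h => ?_
            inj := ?_
            surj := fun {s T l} h hl => ?_
            reg_zero := R.reg_zero
            co_one := (hco R.reg_zero oneZ).trans R.co_one
            mu := fun k => cl _ _ ⟨R.mu k, R.mu_Z k⟩
            mu_mem := fun k => cl_mem _
            mul := ?_
            bok := ?_
            lead := fun j hj => ?_ }⟩
  · have h1 : (LinearMap.proj l).comp (co s T) = 0 := lin_ext fun s' T' z => by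
      change φ (cl s' T' z) (s, T) l = 0
      rw [hφ]
      by_cases e : (s, T) = (s', T')
      · cases e
        refine (congrFun (Pi.single_eq_same (M := fun _ : ℕ × ℕ => ℕ → F) _ _) l).trans ?_
        split_ifs
        · exact R.co_ge s T z.1 l h
        · rfl
      · exact congrFun (Pi.single_eq_of_ne (M := fun _ : ℕ × ℕ => ℕ → F) e _) l
    exact LinearMap.congr_fun h1 x
  · rintro s T _ h ⟨z, rfl⟩ e
    exact cl_eq_zero.2 ((R.ker s T h z.1 z.2).1 ((hco h z).symm.trans e))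
  · obtain ⟨z, h1, h2⟩ := R.surj s T l h hl
    exact ⟨_, cl_mem ⟨z, h1⟩, (hco h _).trans h2⟩
  · rintro k s T a l _ h h' hl ⟨z, rfl⟩ e
    refine Eq.trans (congrFun ((congrArg (co _ _) (mul_cl rfl rfl _ z)).trans (hco h' _)) l) ?_
    exact R.mul k s T a l _ _ rfl rfl h h' hl z.1 z.2 ((hco h z).symm.trans e)
  · rintro s T a l _ h h' hl ⟨z, rfl⟩ e
    obtain ⟨y, hy⟩ := exists_bk z
    refine Eq.trans (congrFun ((congrArg (co _ _) (bk_cl hy)).trans (hco h' _)) l) ?_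
    exact R.bok s T a l h h' hl z.1 y.1 hy ((hco h z).symm.trans e)
  · obtain ⟨h, ε, h1, h2⟩ := R.lead j hj
    refine ⟨h, ?_⟩
    rintro _ ⟨y, rfl⟩ hy
    obtain ⟨e, he⟩ := h2 y.1 y.2
    exact ⟨y, ⟨_, e, mul_ne_zero h1 fun h3 => hy ((congrFun (hco h y) _).trans h3), he⟩, rfl⟩

include hC in
/-- **The abstract spectral sequence of `S / 3`.** -/
theorem exists_SS (Φ : SpaceFunctor 𝒯) : ∃ S : SS, S.High ∧
    (∀ τ, Real τ → Nonempty (Crd τ S)) ∧ (∀ j, S.Out j → EngOut D U i j) ∧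
      (∀ j, S.Out3 j → EngOut3 D U i j) ∧ (S.Out1 → EngOut1 D U i) := by
  have hS : Seed D U V 3 := seed_moore Φ (by norm_num) hC
  obtain ⟨m, hm⟩ := exists_mul hC hS.kil
  obtain ⟨t, ht⟩ := T1 3
  exact ⟨top hC hm hS ht, top_high _ _ _ _, fun _ => top_crd _ _ _ _, fun _ => top_out _ _ _ _,
    fun _ => top_out3 _ _ _ _, top_out1 _ _ _ _⟩

end Vale.Agent.P236E
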